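import Mathlib

/-!
# P095: tracial states and the associated 2-norm
-/

set_option linter.style.haveILetI false

namespace VAgent.P095.Gamma

open scoped ComplexOrder
open Complex

noncomputable section

variable {C : Type*} [CStarAlgebra C]

/-- A tracial state. -/
structure IsTr (τ : C →ₗ[ℂ] ℂ) : Prop where
  nonneg : ∀ a, 0 ≤ τ (star a * a)
  one : τ 1 = 1
  comm : ∀ a b, τ (a * b) = τ (b * a)

/-- The 2-norm of a tracial state. -/
def l2 (τ : C →ₗ[ℂ] ℂ) (a : C) : ℝ := √(τ (star a * a)).re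

theorem l2_nonneg (τ : C →ₗ[ℂ] ℂ) (a : C) : 0 ≤ l2 τ a := Real.sqrt_nonneg _

namespace IsTr

variable {τ : C →ₗ[ℂ] ℂ}

theorem l2_sq (h : IsTr τ) (a : C) : l2 τ a ^ 2 = (τ (star a * a)).re :=
  Real.sq_sqrt (Complex.nonneg_iff.1 (h.nonneg a)).1

theorem sa_sq (h : IsTr τ) {a : C} (ha : IsSelfAdjoint a) :
    l2 τ a ^ 2 = (τ (a * a)).re := by
  rw [h.l2_sq, ha.star_eq]

section order
variable [PartialOrder C] [StarOrderedRing C]

/-- A tracial state as a positive linear map. -/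
def pos (h : IsTr τ) : C →ₚ[ℂ] ℂ := PositiveLinearMap.mk₀ τ fun x hx => by
  obtain ⟨y, rfl⟩ := CStarAlgebra.nonneg_iff_eq_star_mul_self.1 hx
  exact h.nonneg y

theorem l2_eq (h : IsTr τ) (a : C) : l2 τ a = ‖h.pos.toPreGNS a‖ := rfl

theorem nonneg_of_nonneg (h : IsTr τ) {x : C} (hx : 0 ≤ x) : 0 ≤ (τ x).re :=
  (Complex.nonneg_iff.1 (h.pos.map_nonneg hx)).1

end order

theorem map_star (h : IsTr τ) (a : C) : τ (star a) = star (τ a) := by
  letI := CStarAlgebra.spectralOrder C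
  letI := CStarAlgebra.spectralOrderedRing C
  exact StarHomClass.map_star h.pos a

theorem im_eq_zero (h : IsTr τ) {a : C} (ha : IsSelfAdjoint a) : (τ a).im = 0 := by
  have := h.map_star a
  rw [ha.star_eq] at this
  exact Complex.conj_eq_iff_im.1 this.symm

theorem real_eq (h : IsTr τ) {a : C} (ha : IsSelfAdjoint a) : τ a = ((τ a).re : ℂ) :=
  Complex.ext rfl (by simp [h.im_eq_zero ha])

theorem l2_add_le (h : IsTr τ) (a b : C) : l2 τ (a + b) ≤ l2 τ a + l2 τ b := by
  letI := CStarAlgebra.spectralOrder C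
  letI := CStarAlgebra.spectralOrderedRing C
  simp only [h.l2_eq, map_add]
  exact norm_add_le _ _

theorem l2_smul (h : IsTr τ) (c : ℂ) (a : C) : l2 τ (c • a) = ‖c‖ * l2 τ a := by
  letI := CStarAlgebra.spectralOrder C
  letI := CStarAlgebra.spectralOrderedRing C
  simp only [h.l2_eq, map_smul, norm_smul]

theorem l2_rsmul (h : IsTr τ) (c : ℝ) (a : C) : l2 τ (c • a) = |c| * l2 τ a := by
  rw [← Complex.coe_smul, h.l2_smul, Complex.norm_real, Real.norm_eq_abs]

theorem l2_zero (h : IsTr τ) : l2 τ (0 : C) = 0 := by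
  simp [l2]

theorem l2_neg (h : IsTr τ) (a : C) : l2 τ (-a) = l2 τ a := by
  simp [l2]

theorem l2_sub_le (h : IsTr τ) (a b : C) : l2 τ (a - b) ≤ l2 τ a + l2 τ b := by
  simpa [sub_eq_add_neg, h.l2_neg] using h.l2_add_le a (-b)

theorem l2_sum_le (h : IsTr τ) {ι : Type*} (s : Finset ι) (f : ι → C) :
    l2 τ (∑ i ∈ s, f i) ≤ ∑ i ∈ s, l2 τ (f i) := by
  classical
  induction s using Finset.induction_on with
  | empty => simp [h.l2_zero]
  | insert a s ha ih =>
    rw [Finset.sum_insert ha, Finset.sum_insert ha]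
    exact (h.l2_add_le _ _).trans (by linarith)

theorem l2_star (h : IsTr τ) (a : C) : l2 τ (star a) = l2 τ a := by
  simp [l2, h.comm a (star a)]

theorem norm_mul_le (h : IsTr τ) (a b : C) : ‖τ (a * b)‖ ≤ l2 τ a * l2 τ b := by
  letI := CStarAlgebra.spectralOrder C
  letI := CStarAlgebra.spectralOrderedRing C
  rw [← h.l2_star a, h.l2_eq, h.l2_eq]
  have := norm_inner_le_norm (𝕜 := ℂ) (h.pos.toPreGNS (star a)) (h.pos.toPreGNS b)
  rw [PositiveLinearMap.preGNS_inner_def, PositiveLinearMap.ofPreGNS_toPreGNS,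
    PositiveLinearMap.ofPreGNS_toPreGNS, star_star] at this
  exact this

theorem l2_mul_le (h : IsTr τ) (a b : C) : l2 τ (a * b) ≤ ‖a‖ * l2 τ b := by
  letI := CStarAlgebra.spectralOrder C
  letI := CStarAlgebra.spectralOrderedRing C
  simp only [h.l2_eq]
  have := (h.pos.leftMulMapPreGNS a).le_of_opNorm_le
    (LinearMap.mkContinuous_norm_le _ (norm_nonneg a) _) (h.pos.toPreGNS b)
  simpa using this

theorem l2_mul_le' (h : IsTr τ) (a b : C) : l2 τ (a * b) ≤ l2 τ a * ‖b‖ := by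
  rw [← h.l2_star, star_mul, mul_comm]
  simpa [h.l2_star, norm_star] using h.l2_mul_le (star b) (star a)

theorem l2_one (h : IsTr τ) : l2 τ (1 : C) = 1 := by simp [l2, h.one]

theorem l2_le_norm (h : IsTr τ) (a : C) : l2 τ a ≤ ‖a‖ := by
  simpa [h.l2_one] using h.l2_mul_le a 1

theorem norm_le (h : IsTr τ) (a : C) : ‖τ a‖ ≤ ‖a‖ := by
  have := h.norm_mul_le a 1
  simp [h.l2_one] at this
  exact this.trans (h.l2_le_norm a)

theorem continuous (h : IsTr τ) : Continuous τ :=
  AddMonoidHomClass.continuous_of_bound τ 1 fun a => by simpa using h.norm_le a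

theorem abs_re_mul_le (h : IsTr τ) (a b : C) : |(τ (a * b)).re| ≤ l2 τ a * l2 τ b :=
  (Complex.abs_re_le_norm _).trans (h.norm_mul_le a b)

theorem re_sq_le (h : IsTr τ) {a : C} (ha : IsSelfAdjoint a) :
    (τ a).re ^ 2 ≤ (τ (a * a)).re := by
  rw [← h.sa_sq ha, ← sq_abs]
  have := h.abs_re_mul_le a 1
  simp [h.l2_one] at this
  gcongr

theorem parallelogram (h : IsTr τ) (a b : C) :
    l2 τ (a - b) ^ 2 = 2 * l2 τ a ^ 2 + 2 * l2 τ b ^ 2 - l2 τ (a + b) ^ 2 := by
  simp only [h.l2_sq, star_sub, star_add, sub_mul, mul_sub, add_mul, mul_add, map_sub, map_add,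
    Complex.sub_re, Complex.add_re]
  ring

end IsTr

/-- Finite sums of commutators. -/
def commSums (C : Type*) [CStarAlgebra C] : Submodule ℂ C :=
  Submodule.span ℂ (Set.range fun p : C × C => p.1 * p.2 - p.2 * p.1)

theorem IsTr.commSums_eq_zero {τ : C →ₗ[ℂ] ℂ} (h : IsTr τ) {x : C} (hx : x ∈ commSums C) :
    τ x = 0 := by
  induction hx using Submodule.span_induction with
  | mem x hx => obtain ⟨⟨a, b⟩, rfl⟩ := hx; simp [h.comm a b]
  | zero => simp
  | add x y _ _ hx hy => simp [hx, hy]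
  | smul c x _ hx => simp [hx]

theorem commSums_mem (u v : C) : u * v - v * u ∈ commSums C :=
  Submodule.subset_span ⟨(u, v), rfl⟩

theorem commSums_map {D : Type*} [CStarAlgebra D] (φ : C →⋆ₐ[ℂ] D) {x : C}
    (hx : x ∈ commSums C) : φ x ∈ commSums D := by
  induction hx using Submodule.span_induction with
  | mem x hx => obtain ⟨⟨a, b⟩, rfl⟩ := hx; simpa using commSums_mem (φ a) (φ b)
  | zero => simp
  | add x y _ _ hx hy => simpa using add_mem hx hy
  | smul c x _ hx => simpa using Submodule.smul_mem _ c hx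

end

end VAgent.P095.Gamma
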