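import Mathlib

/-!
# P095: the scalar quadratic form behind equivariant uniform property Gamma

For a kernel `Φ` on a finite set and a finite set `F` of `N` points, `deg Φ F x` is the average
of `Φ x y` over `y ∈ F` and `qform p Φ F F'` is the pairing of the vectors
`N⁻¹ • p (deg Φ F ·)` on `F` and `F'` with respect to `Φ`.
-/

namespace VAgent.P095.Gamma

noncomputable section

variable {β : Type*}

/-- Average of the kernel over `F`. -/
def deg (Φ : β → β → ℝ) (F : Finset β) (x : β) : ℝ :=
  (F.card : ℝ)⁻¹ * ∑ y ∈ F, Φ x y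

/-- Pairing of the weighted vectors of `F` and `F'`. -/
def qform (p : Polynomial ℝ) (Φ : β → β → ℝ) (F F' : Finset β) : ℝ :=
  ((F.card : ℝ) * F'.card)⁻¹ *
    ∑ x ∈ F, ∑ y ∈ F', p.eval (deg Φ F x) * p.eval (deg Φ F' y) * Φ x y

/-- The pairing averaged over the scales `2, 4, …, 2 ^ I`. -/
def scaleForm (p : Polynomial ℝ) (I : ℕ) (T : β → β → ℝ) (F F' : Finset β) : ℝ :=
  (I : ℝ)⁻¹ * ∑ i ∈ Finset.range I, qform p (fun x y => T x y ^ 2 ^ (i + 1)) F F'

/-- A unit diagonal symmetric kernel, bounded by one, with the triangle inequality of a kernel of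
unit vectors. -/
structure GoodKernel (T : β → β → ℝ) : Prop where
  diag : ∀ x, T x x = 1
  symm : ∀ x y, T x y = T y x
  abs_le : ∀ x y, |T x y| ≤ 1
  triangle : ∀ x y z, 1 - |T x z| ≤ 2 * ((1 - |T x y|) + (1 - |T y z|))

end

end VAgent.P095.Gamma
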