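import Mathlib
import Vale.Agent.P095.Gamma.Trace
import Vale.Agent.P095.Gamma.ScalarDefs

/-!
# P095: the vector built from one pool of copies

`y i b` is copy `i` translated by `b`. `pvec p I y P F` is computed from the copies in `P` alone;
under a tracial state that factorizes over disjoint sets of copies, its inner products approximate
`scaleForm p I (kernel τ y P)`.
-/

namespace VAgent.P095.Gamma

open scoped ComplexOrder

noncomputable section

variable {C : Type*} [CStarAlgebra C] {β : Type*}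

/-- The product of the copies in `S` at `b`. -/
def prodOn (y : ℕ → β → C) (S : Finset ℕ) (b : β) : C :=
  ((S.sort (· ≤ ·)).map fun i => y i b).prod

/-- Symmetrised empirical correlation over `J`, normalised for a pool of `n` copies. -/
def corr (y : ℕ → β → C) (n : ℕ) (J : Finset ℕ) (a b : β) : C :=
  (n : ℝ)⁻¹ • ∑ i ∈ J, (y i a * y i b + y i b * y i a)

/-- Empirical degree. -/
def degHat (y : ℕ → β → C) (n q : ℕ) (J : Finset ℕ) (F : Finset β) (b : β) : C :=
  (F.card : ℝ)⁻¹ • ∑ z ∈ F, corr y n J b z ^ q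

/-- The weighted degree `q` component at `b`: the weights use the copies in `J` and the product the
copies outside `J`. -/
def pcomp (p : Polynomial ℝ) (y : ℕ → β → C) (q : ℕ) (P : Finset ℕ) (F : Finset β) (b : β) : C :=
  ((2 : ℝ) ^ q / 2 ^ P.card * √((q.factorial : ℝ) / (P.card : ℝ) ^ q)) •
    ∑ J ∈ P.powerset, (∑ S ∈ (P \ J).powersetCard q, prodOn y S b) *
      Polynomial.aeval (degHat y P.card q J F b) p

/-- The vector attached to `F`. -/
def pvec (p : Polynomial ℝ) (I : ℕ) (y : ℕ → β → C) (P : Finset ℕ) (F : Finset β) : C :=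
  ((√(I : ℝ))⁻¹ * (F.card : ℝ)⁻¹) •
    ∑ i ∈ Finset.range I, ∑ b ∈ F, pcomp p y (2 ^ (i + 1)) P F b

/-- The averaged covariance kernel of a pool. -/
def kernel (τ : C →ₗ[ℂ] ℂ) (y : ℕ → β → C) (P : Finset ℕ) (a b : β) : ℝ :=
  (P.card : ℝ)⁻¹ * ∑ i ∈ P, (τ (y i a * y i b)).re

/-- Centred normalised self-adjoint copies, independent under the tracial state `τ`. -/
structure Copies (τ : C →ₗ[ℂ] ℂ) (M : ℝ) (y : ℕ → β → C)
    (alg : Set ℕ → StarSubalgebra ℂ C) : Prop where
  tr : IsTr τ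
  mem : ∀ (J : Set ℕ) (i : ℕ) (b : β), i ∈ J → y i b ∈ alg J
  mono : Monotone alg
  comm : ∀ (J J' : Set ℕ), Disjoint J J' → ∀ u ∈ alg J, ∀ w ∈ alg J', Commute u w
  indep : ∀ (J J' : Set ℕ), Disjoint J J' → ∀ u ∈ alg J, ∀ w ∈ alg J', τ (u * w) = τ u * τ w
  sa : ∀ i b, IsSelfAdjoint (y i b)
  norm_le : ∀ i b, ‖y i b‖ ≤ M
  mean_zero : ∀ i b, τ (y i b) = 0
  mean_sq : ∀ i b, τ (y i b * y i b) = 1

end

end VAgent.P095.Gamma
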