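import Mathlib
import Vale.Agent.P095.Gamma.PoolDefs

/-!
# P095: the vector of one pool and its quadratic form

Elementary properties of `pvec`, the covariance kernel, and the estimate that for a large pool the
inner products of the vectors `pvec p I y P F` are close to `scaleForm p I (kernel τ y P)`.
-/

set_option linter.style.haveILetI false

namespace VAgent.P095.Gamma

open scoped ComplexOrder
open Finset

noncomputable section

universe u v

variable {C : Type u} [CStarAlgebra C] {β : Type v}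

theorem map_rsmul {D : Type*} [CStarAlgebra D] (f : C →⋆ₐ[ℂ] D) (r : ℝ) (x : C) :
    f (r • x) = r • f x := by
  rw [← Complex.coe_smul, map_smul, Complex.coe_smul]

theorem map_raeval {D : Type*} [CStarAlgebra D] (f : C →⋆ₐ[ℂ] D) (p : Polynomial ℝ) (x : C) :
    f (Polynomial.aeval x p) = Polynomial.aeval (f x) p := by
  simp [Polynomial.aeval_eq_sum_range, map_sum, map_rsmul, map_pow]

theorem pvec_map {D : Type*} [CStarAlgebra D] (f : C →⋆ₐ[ℂ] D) (p : Polynomial ℝ) (I : ℕ)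
    (y : ℕ → β → C) (P : Finset ℕ) (F : Finset β) :
    f (pvec p I y P F) = pvec p I (fun i b => f (y i b)) P F := by
  have hprod : ∀ (S : Finset ℕ) (b : β), f (prodOn y S b) = prodOn (fun i b => f (y i b)) S b := by
    intro S b
    simp [prodOn, map_list_prod, List.map_map, Function.comp_def]
  simp only [pvec, pcomp, map_rsmul, map_sum, map_mul, hprod, map_raeval, degHat, corr, map_add,
    map_pow]

theorem pvec_image {γ : Type*} [DecidableEq γ] (p : Polynomial ℝ) (I : ℕ) (y : ℕ → γ → C)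
    (P : Finset ℕ) (e : β → γ) (F : Finset β) (he : Set.InjOn e F) :
    pvec p I y P (F.image e) = pvec p I (fun i b => y i (e b)) P F := by
  simp [pvec, pcomp, degHat, corr, prodOn, Finset.sum_image he, Finset.card_image_of_injOn he]

theorem mem_rsmul {A : StarSubalgebra ℂ C} (r : ℝ) {x : C} (hx : x ∈ A) : r • x ∈ A := by
  rw [← Complex.coe_smul]
  exact A.toSubalgebra.smul_mem hx _

theorem mem_raeval {A : StarSubalgebra ℂ C} (p : Polynomial ℝ) {x : C} (hx : x ∈ A) :
    Polynomial.aeval x p ∈ A := by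
  rw [Polynomial.aeval_eq_sum_range]
  exact sum_mem fun k _ => mem_rsmul _ (pow_mem hx k)

theorem prodOn_mem {A : StarSubalgebra ℂ C} {y : ℕ → β → C} {S : Finset ℕ} {b : β}
    (h : ∀ i ∈ S, y i b ∈ A) : prodOn y S b ∈ A := by
  refine list_prod_mem fun x hx => ?_
  obtain ⟨i, hi, rfl⟩ := List.mem_map.1 hx
  exact h i ((Finset.mem_sort _).1 hi)

theorem corr_mem {A : StarSubalgebra ℂ C} {y : ℕ → β → C} (n : ℕ) {J : Finset ℕ} {a b : β}
    (ha : ∀ i ∈ J, y i a ∈ A) (hb : ∀ i ∈ J, y i b ∈ A) : corr y n J a b ∈ A :=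
  mem_rsmul _ (sum_mem fun i hi =>
    add_mem (mul_mem (ha i hi) (hb i hi)) (mul_mem (hb i hi) (ha i hi)))

theorem degHat_mem {A : StarSubalgebra ℂ C} {y : ℕ → β → C} (n q : ℕ) {J : Finset ℕ}
    {F : Finset β} {b : β} (hb : b ∈ F) (h : ∀ i ∈ J, ∀ z ∈ F, y i z ∈ A) :
    degHat y n q J F b ∈ A :=
  mem_rsmul _ (sum_mem fun z hz =>
    pow_mem (corr_mem n (fun i hi => h i hi b hb) fun i hi => h i hi z hz) _)

theorem pvec_mem (p : Polynomial ℝ) (I : ℕ) (y : ℕ → β → C) (A : StarSubalgebra ℂ C) (P : Finset ℕ)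
    (F : Finset β) (h : ∀ i ∈ P, ∀ b ∈ F, y i b ∈ A) : pvec p I y P F ∈ A := by
  refine mem_rsmul _ (sum_mem fun i _ => sum_mem fun b hb => mem_rsmul _ (sum_mem fun J hJ => ?_))
  rw [Finset.mem_powerset] at hJ
  refine mul_mem (sum_mem fun S hS => prodOn_mem fun i hi => ?_) ?_
  · exact h i (Finset.mem_sdiff.1 ((Finset.mem_powersetCard.1 hS).1 hi)).1 b hb
  · exact mem_raeval _ (degHat_mem _ _ hb fun i hi => h i (hJ hi))

/-! ### Norm bounds -/

theorem norm_one_le_one : ‖(1 : C)‖ ≤ 1 := by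
  rcases subsingleton_or_nontrivial C with h | h
  · rw [Subsingleton.elim (1 : C) 0, norm_zero]
    exact zero_le_one
  · rw [CStarRing.norm_one]

theorem norm_list_prod_le {l : List C} {B : ℝ} (hB : 0 ≤ B) (h : ∀ x ∈ l, ‖x‖ ≤ B) :
    ‖l.prod‖ ≤ B ^ l.length := by
  induction l with
  | nil => simpa using norm_one_le_one
  | cons a l ih =>
    rw [List.prod_cons, List.length_cons, pow_succ']
    exact (norm_mul_le _ _).trans (mul_le_mul (h a List.mem_cons_self)
      (ih fun x hx => h x (List.mem_cons_of_mem _ hx)) (norm_nonneg _) hB)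

theorem norm_pow_le_pow {x : C} {B : ℝ} (hB : 0 ≤ B) (h : ‖x‖ ≤ B) (k : ℕ) : ‖x ^ k‖ ≤ B ^ k := by
  rw [← List.prod_replicate k x]
  simpa using norm_list_prod_le (l := List.replicate k x) hB fun z hz => by
    rw [List.eq_of_mem_replicate hz]; exact h

/-- The bound on a polynomial on the ball of radius `L`. -/
def polyBd (p : Polynomial ℝ) (L : ℝ) : ℝ :=
  ∑ k ∈ Finset.range (p.natDegree + 1), |p.coeff k| * L ^ k

theorem norm_raeval_le (p : Polynomial ℝ) {x : C} {L : ℝ} (hL : 0 ≤ L) (h : ‖x‖ ≤ L) :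
    ‖Polynomial.aeval x p‖ ≤ polyBd p L := by
  rw [Polynomial.aeval_eq_sum_range]
  refine (norm_sum_le _ _).trans (Finset.sum_le_sum fun k _ => ?_)
  rw [norm_smul, Real.norm_eq_abs]
  exact mul_le_mul_of_nonneg_left (norm_pow_le_pow hL h k) (abs_nonneg _)

theorem norm_corr_le {y : ℕ → β → C} {M : ℝ} (hy : ∀ i b, ‖y i b‖ ≤ M) {n : ℕ} {J : Finset ℕ}
    (hJ : J.card ≤ n) (a b : β) : ‖corr y n J a b‖ ≤ 2 * M ^ 2 := by
  have hM : 0 ≤ M := (norm_nonneg _).trans (hy 0 a)
  rw [corr, norm_smul, Real.norm_eq_abs, abs_of_nonneg (by positivity)]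
  rcases Nat.eq_zero_or_pos n with rfl | hn
  · simpa using (by positivity : (0 : ℝ) ≤ 2 * M ^ 2)
  rw [inv_mul_le_iff₀ (by exact_mod_cast hn)]
  refine (norm_sum_le _ _).trans ((Finset.sum_le_card_nsmul J _ (2 * M ^ 2) fun i _ => ?_).trans ?_)
  · refine (norm_add_le _ _).trans ?_
    nlinarith [norm_mul_le (y i a) (y i b), norm_mul_le (y i b) (y i a),
      mul_le_mul (hy i a) (hy i b) (norm_nonneg _) hM]
  · rw [nsmul_eq_mul]
    exact mul_le_mul_of_nonneg_right (by exact_mod_cast hJ) (by positivity)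

theorem norm_degHat_le {y : ℕ → β → C} {M : ℝ} (hy : ∀ i b, ‖y i b‖ ≤ M) {n : ℕ} {J : Finset ℕ}
    (hJ : J.card ≤ n) (q : ℕ) (F : Finset β) (b : β) :
    ‖degHat y n q J F b‖ ≤ (2 * M ^ 2) ^ q := by
  rw [degHat, norm_smul, Real.norm_eq_abs, abs_of_nonneg (by positivity)]
  rcases F.eq_empty_or_nonempty with rfl | hF
  · simp; positivity
  rw [inv_mul_le_iff₀ (by exact_mod_cast hF.card_pos)]
  refine (norm_sum_le _ _).trans ((Finset.sum_le_card_nsmul F _ ((2 * M ^ 2) ^ q) fun z _ => ?_).trans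
    (by rw [nsmul_eq_mul]))
  exact norm_pow_le_pow (by positivity) (norm_corr_le hy hJ b z) q

theorem exists_norm_pvec_le (p : Polynomial ℝ) (I N n : ℕ) (M : ℝ) :
    ∃ V : ℝ, ∀ (C : Type*) [CStarAlgebra C] (β : Type*) (y : ℕ → β → C) (P : Finset ℕ)
      (F : Finset β), (∀ i b, ‖y i b‖ ≤ M) → P.card = n → F.card = N → ‖pvec p I y P F‖ ≤ V := by
  refine ⟨|(√(I : ℝ))⁻¹ * (N : ℝ)⁻¹| * ∑ i ∈ Finset.range I, N *
    (|(2 : ℝ) ^ (2 ^ (i + 1)) / 2 ^ n * √(((2 ^ (i + 1)).factorial : ℝ) / (n : ℝ) ^ (2 ^ (i + 1)))| *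
      (2 ^ n * (2 ^ n * |M| ^ (2 ^ (i + 1)) * polyBd p ((2 * M ^ 2) ^ (2 ^ (i + 1)))))), ?_⟩
  intro C _ β y P F hy hP hF
  rw [pvec, norm_smul, Real.norm_eq_abs, hF]
  refine mul_le_mul_of_nonneg_left ((norm_sum_le _ _).trans (Finset.sum_le_sum fun i _ => ?_))
    (abs_nonneg _)
  refine (norm_sum_le _ _).trans ((Finset.sum_le_card_nsmul F _
    (|(2 : ℝ) ^ (2 ^ (i + 1)) / 2 ^ n * √(((2 ^ (i + 1)).factorial : ℝ) / (n : ℝ) ^ (2 ^ (i + 1)))| *
      (2 ^ n * (2 ^ n * |M| ^ (2 ^ (i + 1)) * polyBd p ((2 * M ^ 2) ^ (2 ^ (i + 1))))))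
    fun b hb => ?_).trans (by rw [nsmul_eq_mul, hF]))
  rw [pcomp, norm_smul, Real.norm_eq_abs, hP]
  refine mul_le_mul_of_nonneg_left ((norm_sum_le _ _).trans ((Finset.sum_le_card_nsmul _ _
    (2 ^ n * |M| ^ (2 ^ (i + 1)) * polyBd p ((2 * M ^ 2) ^ (2 ^ (i + 1)))) fun J hJ => ?_).trans
      (by rw [nsmul_eq_mul, Finset.card_powerset, hP]; push_cast; exact le_rfl))) (abs_nonneg _)
  rw [Finset.mem_powerset] at hJ
  refine (norm_mul_le _ _).trans (mul_le_mul ((norm_sum_le _ _).trans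
    ((Finset.sum_le_card_nsmul _ _ (|M| ^ (2 ^ (i + 1))) fun S hS => ?_).trans ?_))
    (norm_raeval_le p (by positivity) ?_) (norm_nonneg _) (by positivity))
  · have := norm_list_prod_le (l := (S.sort (· ≤ ·)).map fun i => y i b) (abs_nonneg M) (by
      intro x hx
      obtain ⟨i, -, rfl⟩ := List.mem_map.1 hx
      exact (hy i b).trans (le_abs_self M))
    simpa [prodOn, (Finset.mem_powersetCard.1 hS).2] using this
  · rw [nsmul_eq_mul, Finset.card_powersetCard]
    refine mul_le_mul_of_nonneg_right ?_ (by positivity)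
    calc (((P \ J).card.choose (2 ^ (i + 1)) : ℕ) : ℝ) ≤ ((2 ^ (P \ J).card : ℕ) : ℝ) := by
          exact_mod_cast Nat.choose_le_two_pow _ _
      _ ≤ 2 ^ n := by
          push_cast
          exact pow_le_pow_right₀ one_le_two (hP ▸ Finset.card_le_card Finset.sdiff_subset)
  · exact norm_degHat_le hy (hP ▸ Finset.card_le_card hJ) _ F b

/-! ### Products of independent copies -/

namespace Copies

variable {τ : C →ₗ[ℂ] ℂ} {M : ℝ} {y : ℕ → β → C} {alg : Set ℕ → StarSubalgebra ℂ C}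

theorem commute_copy (h : Copies τ M y alg) {i j : ℕ} (hij : i ≠ j) (a b : β) :
    Commute (y i a) (y j b) :=
  h.comm {i} {j} (Set.disjoint_singleton.2 hij) _ (h.mem _ i a rfl) _ (h.mem _ j b rfl)

theorem prodOn_insert (h : Copies τ M y alg) {i : ℕ} {S : Finset ℕ} (hi : i ∉ S) (b : β) :
    prodOn y (insert i S) b = y i b * prodOn y S b := by
  have hc : ∀ T : Finset ℕ, (T : Set ℕ).Pairwise fun j k => Commute (y j b) (y k b) :=
    fun T j _ k _ hjk => h.commute_copy hjk b b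
  have he : ∀ T : Finset ℕ, prodOn y T b = T.noncommProd (fun j => y j b) (hc T) := fun T => by
    simp only [prodOn, Finset.noncommProd, ← Finset.sort_eq T (· ≤ ·), Multiset.map_coe,
      Multiset.noncommProd_coe]
  rw [he, he, Finset.noncommProd_insert_of_notMem _ _ _ _ hi]

theorem mem_alg_of_subset (h : Copies τ M y alg) {S : Finset ℕ} {J : Set ℕ} (hS : (S : Set ℕ) ⊆ J)
    (b : β) : prodOn y S b ∈ alg J :=
  prodOn_mem fun i hi => h.mem J i b (hS hi)

theorem commute_prodOn (h : Copies τ M y alg) {i : ℕ} {S : Finset ℕ} (hi : i ∉ S) (a b : β) :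
    Commute (y i a) (prodOn y S b) :=
  h.comm {i} (S : Set ℕ) (Set.disjoint_singleton_left.2 hi) _ (h.mem _ i a rfl) _
    (h.mem_alg_of_subset subset_rfl b)

theorem sa_prodOn (h : Copies τ M y alg) (S : Finset ℕ) (b : β) :
    IsSelfAdjoint (prodOn y S b) := by
  induction S using Finset.induction_on with
  | empty => simp [prodOn]
  | insert i S hi ih =>
    rw [h.prodOn_insert hi]
    exact ((h.sa i b).commute_iff ih).1 (h.commute_prodOn hi b b)

theorem tr_prodOn (h : Copies τ M y alg) {S : Finset ℕ} (hS : S.Nonempty) (b : β) :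
    τ (prodOn y S b) = 0 := by
  classical
  obtain ⟨i, hi⟩ := hS
  rw [← Finset.insert_erase hi, h.prodOn_insert (Finset.notMem_erase i S),
    h.indep {i} (↑(S.erase i)) (Set.disjoint_singleton_left.2 (Finset.notMem_erase i S))
      _ (h.mem _ i b rfl) _ (h.mem_alg_of_subset subset_rfl b), h.mean_zero, zero_mul]

theorem tr_prodOn_mul (h : Copies τ M y alg) (a b : β) : ∀ S T : Finset ℕ,
    τ (prodOn y S a * prodOn y T b) = if S = T then ∏ i ∈ S, τ (y i a * y i b) else 0 := by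
  classical
  intro S
  induction S using Finset.induction_on with
  | empty =>
    intro T
    by_cases hT : ∅ = T
    · subst hT
      simp [prodOn, h.tr.one]
    · rw [if_neg hT]
      simpa [prodOn] using h.tr_prodOn (Finset.nonempty_iff_ne_empty.2 (Ne.symm hT)) b
  | insert i S hi ih =>
    intro T
    by_cases hiT : i ∈ T
    · have hd : Disjoint ({i} : Set ℕ) ↑(S ∪ T.erase i) :=
        Set.disjoint_singleton_left.2 (by simp [hi])
      have e : prodOn y (insert i S) a * prodOn y T b =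
          (y i a * y i b) * (prodOn y S a * prodOn y (T.erase i) b) := by
        conv_lhs => rw [h.prodOn_insert hi, ← Finset.insert_erase hiT,
          h.prodOn_insert (Finset.notMem_erase i T)]
        rw [(h.commute_prodOn hi b a).symm.mul_mul_mul_comm]
      rw [e, h.indep _ _ hd _ (mul_mem (h.mem _ i a rfl) (h.mem _ i b rfl)) _
        (mul_mem (h.mem_alg_of_subset (by simp) a) (h.mem_alg_of_subset (by simp) b)), ih]
      by_cases hST : S = T.erase i
      · rw [if_pos hST, if_pos (by rw [hST, Finset.insert_erase hiT]), Finset.prod_insert hi]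
      · rw [if_neg hST, if_neg (fun e => hST (by rw [← e, Finset.erase_insert hi])), mul_zero]
    · have hd : Disjoint ({i} : Set ℕ) ↑(S ∪ T) :=
        Set.disjoint_singleton_left.2 (by simp [hi, hiT])
      rw [h.prodOn_insert hi, mul_assoc, h.indep _ _ hd _ (h.mem _ i a rfl) _
        (mul_mem (h.mem_alg_of_subset (by simp) a) (h.mem_alg_of_subset (by simp) b)),
        h.mean_zero, zero_mul, if_neg]
      exact fun e => hiT (e ▸ Finset.mem_insert_self i S)

theorem tr_mul_eq (h : Copies τ M y alg) (i : ℕ) (a b : β) :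
    τ (y i a * y i b) = (((τ (y i a * y i b)).re : ℝ) : ℂ) := by
  refine Complex.ext rfl ?_
  have := h.tr.map_star (y i a * y i b)
  rw [star_mul, (h.sa i a).star_eq, (h.sa i b).star_eq, h.tr.comm] at this
  simp [Complex.conj_eq_iff_im.1 this.symm]

theorem l2_copy (h : Copies τ M y alg) (i : ℕ) (b : β) : l2 τ (y i b) = 1 := by
  have := h.tr.sa_sq (h.sa i b)
  rw [h.mean_sq, Complex.one_re] at this
  exact (pow_eq_one_iff_of_nonneg (l2_nonneg τ _) two_ne_zero).1 this

theorem abs_cov_le (h : Copies τ M y alg) (i : ℕ) (a b : β) : |(τ (y i a * y i b)).re| ≤ 1 := by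
  have := h.tr.abs_re_mul_le (y i a) (y i b)
  rwa [h.l2_copy, h.l2_copy, one_mul] at this

theorem sa_weight (h : Copies τ M y alg) (p : Polynomial ℝ) (n q : ℕ) (J : Finset ℕ) (F : Finset β)
    (b : β) : IsSelfAdjoint (Polynomial.aeval (degHat y n q J F b) p) := by
  have hd : IsSelfAdjoint (degHat y n q J F b) := by
    refine (IsSelfAdjoint.all _).smul (isSelfAdjoint_sum _ fun z _ => IsSelfAdjoint.pow ?_ q)
    refine (IsSelfAdjoint.all _).smul (isSelfAdjoint_sum _ fun i _ => ?_)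
    rw [IsSelfAdjoint, star_add, star_mul, star_mul, (h.sa i b).star_eq, (h.sa i z).star_eq,
      add_comm]
  rw [Polynomial.aeval_eq_sum_range]
  exact isSelfAdjoint_sum _ fun k _ => (IsSelfAdjoint.all _).smul (hd.pow k)

theorem mem_weight (h : Copies τ M y alg) (p : Polynomial ℝ) (n q : ℕ) (J : Finset ℕ) (F : Finset β)
    (b : β) : Polynomial.aeval (degHat y n q J F b) p ∈ alg (J : Set ℕ) :=
  mem_raeval _ (mem_rsmul _ (sum_mem fun z _ =>
    pow_mem (corr_mem n (fun i hi => h.mem _ i b hi) fun i hi => h.mem _ i z hi) _))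

theorem mem_prodSum (h : Copies τ M y alg) (K : Finset ℕ) (q : ℕ) (b : β) :
    (∑ S ∈ K.powersetCard q, prodOn y S b) ∈ alg (K : Set ℕ) :=
  sum_mem fun _ hS => h.mem_alg_of_subset
    (Finset.coe_subset.2 (Finset.mem_powersetCard.1 hS).1) b

theorem disjoint_sdiff_coe (P J : Finset ℕ) : Disjoint ((P \ J : Finset ℕ) : Set ℕ) (J : Set ℕ) :=
  Finset.disjoint_coe.2 Finset.sdiff_disjoint

theorem isSelfAdjoint_pvec (h : Copies τ M y alg) (p : Polynomial ℝ) (I : ℕ) (P : Finset ℕ)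
    (F : Finset β) : IsSelfAdjoint (pvec p I y P F) := by
  refine (IsSelfAdjoint.all _).smul (isSelfAdjoint_sum _ fun i _ => isSelfAdjoint_sum _ fun b _ =>
    (IsSelfAdjoint.all _).smul (isSelfAdjoint_sum _ fun J _ => ?_))
  exact ((isSelfAdjoint_sum _ fun S _ => h.sa_prodOn S b).commute_iff (h.sa_weight p _ _ J F b)).1
    (h.comm _ _ (disjoint_sdiff_coe P J) _ (h.mem_prodSum _ _ b) _ (h.mem_weight p _ _ J F b))

theorem tr_pvec (h : Copies τ M y alg) (p : Polynomial ℝ) (I : ℕ) (P : Finset ℕ)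
    (F : Finset β) : τ (pvec p I y P F) = 0 := by
  simp only [pvec, pcomp, LinearMap.map_smul_of_tower, map_sum]
  refine smul_eq_zero_of_right _ (Finset.sum_eq_zero fun i _ => Finset.sum_eq_zero fun b _ =>
    smul_eq_zero_of_right _ (Finset.sum_eq_zero fun J _ => ?_))
  rw [h.indep _ _ (disjoint_sdiff_coe P J) _ (h.mem_prodSum _ _ b) _ (h.mem_weight p _ _ J F b),
    map_sum, Finset.sum_eq_zero, zero_mul]
  intro S hS
  exact h.tr_prodOn (Finset.card_pos.1 (by rw [(Finset.mem_powersetCard.1 hS).2]; positivity)) b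

theorem goodKernel (h : Copies τ M y alg) (P : Finset ℕ) (hP : P.Nonempty) :
    GoodKernel (kernel τ y P) := by
  have hc : (0 : ℝ) < P.card := by exact_mod_cast hP.card_pos
  have hsymm : ∀ a b, kernel τ y P a b = kernel τ y P b a := fun a b => by
    simp only [kernel, h.tr.comm (y _ a) (y _ b)]
  refine ⟨fun a => ?_, hsymm, fun a b => ?_, fun a b c => ?_⟩
  · simp [kernel, h.mean_sq, hc.ne']
  · rw [kernel, abs_mul, abs_of_pos (inv_pos.2 hc), inv_mul_le_iff₀ hc]
    refine (Finset.abs_sum_le_sum_abs _ _).trans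
      ((Finset.sum_le_card_nsmul _ _ 1 fun i _ => h.abs_cov_le i a b).trans ?_)
    simp
  · obtain ⟨s, hs, hs'⟩ : ∃ s : ℝ, (s = 1 ∨ s = -1) ∧ s * kernel τ y P a b = |kernel τ y P a b| := by
      rcases abs_choice (kernel τ y P a b) with e | e
      · exact ⟨1, .inl rfl, by rw [e, one_mul]⟩
      · exact ⟨-1, .inr rfl, by rw [e, neg_one_mul]⟩
    obtain ⟨t, ht, ht'⟩ : ∃ t : ℝ, (t = 1 ∨ t = -1) ∧ t * kernel τ y P b c = |kernel τ y P b c| := by
      rcases abs_choice (kernel τ y P b c) with e | e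
      · exact ⟨1, .inl rfl, by rw [e, one_mul]⟩
      · exact ⟨-1, .inr rfl, by rw [e, neg_one_mul]⟩
    have hi : ∀ i, 2 - 2 * (s * t) * (τ (y i a * y i c)).re ≤
        2 * (2 - 2 * s * (τ (y i a * y i b)).re) + 2 * (2 - 2 * t * (τ (y i b * y i c)).re) := by
      intro i
      have hx : ∀ (u w : ℝ), u ^ 2 = 1 → w ^ 2 = 1 → ∀ m k : β,
          l2 τ (u • y i m - w • y i k) ^ 2 = 2 - 2 * (u * w) * (τ (y i m * y i k)).re := by
        intro u w hu hw m k
        rw [h.tr.sa_sq (((IsSelfAdjoint.all u).smul (h.sa i m)).sub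
          ((IsSelfAdjoint.all w).smul (h.sa i k)))]
        simp only [sub_mul, mul_sub, smul_mul_smul_comm, map_sub, LinearMap.map_smul_of_tower,
          Complex.sub_re, Complex.real_smul, Complex.re_ofReal_mul, h.mean_sq, Complex.one_re,
          h.tr.comm (y i k) (y i m)]
        linear_combination hu + hw
      have hs2 : s ^ 2 = 1 := by rcases hs with rfl | rfl <;> norm_num
      have ht2 : t ^ 2 = 1 := by rcases ht with rfl | rfl <;> norm_num
      have e1 := hx s t hs2 ht2 a c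
      have e2 := hx s 1 hs2 (one_pow 2) a b
      have e3 := hx 1 t (one_pow 2) ht2 b c
      rw [one_smul] at e2 e3
      have hp := h.tr.parallelogram (s • y i a - y i b) (y i b - t • y i c)
      rw [sub_add_sub_cancel] at hp
      nlinarith [sq_nonneg (l2 τ ((s • y i a - y i b) - (y i b - t • y i c)))]
    have hsum := Finset.sum_le_sum fun i (_ : i ∈ P) => hi i
    simp only [Finset.sum_add_distrib, Finset.sum_sub_distrib, ← Finset.mul_sum, Finset.sum_const,
      nsmul_eq_mul] at hsum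
    have hk : ∀ u w, ∑ i ∈ P, (τ (y i u * y i w)).re = (P.card : ℝ) * kernel τ y P u w := fun u w => by
      rw [kernel, ← mul_assoc, mul_inv_cancel₀ hc.ne', one_mul]
    simp only [hk] at hsum
    have h3 : 1 - s * t * kernel τ y P a c ≤
        2 * ((1 - s * kernel τ y P a b) + (1 - t * kernel τ y P b c)) := by
      refine le_of_mul_le_mul_left ?_ hc
      linarith
    have h4 : s * t * kernel τ y P a c ≤ |kernel τ y P a c| := by
      refine (le_abs_self _).trans_eq ?_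
      rcases hs with rfl | rfl <;> rcases ht with rfl | rfl <;> simp [abs_neg]
    linarith

end Copies

/-! ### Scalar lemmas -/

theorem sum_mul_esymm (t : ℕ → ℝ) (P : Finset ℕ) (q : ℕ) :
    (∑ i ∈ P, t i) * ∑ S ∈ P.powersetCard q, ∏ i ∈ S, t i =
      (q + 1) * ∑ U ∈ P.powersetCard (q + 1), ∏ i ∈ U, t i +
      ∑ S ∈ P.powersetCard q, (∏ i ∈ S, t i) * ∑ i ∈ S, t i := by
  classical
  have h1 : ∀ S ∈ P.powersetCard q, (∑ i ∈ P, t i) * ∏ j ∈ S, t j =
      ∑ i ∈ P \ S, ∏ j ∈ insert i S, t j + (∏ j ∈ S, t j) * ∑ i ∈ S, t i := by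
    intro S hS
    rw [← Finset.sum_sdiff (Finset.mem_powersetCard.1 hS).1, add_mul,
      mul_comm (∑ i ∈ S, t i), Finset.sum_mul]
    congr 1
    refine Finset.sum_congr rfl fun i hi => ?_
    rw [Finset.prod_insert (Finset.mem_sdiff.1 hi).2]
  have h2 : ∑ S ∈ P.powersetCard q, ∑ i ∈ P \ S, ∏ j ∈ insert i S, t j =
      ∑ U ∈ P.powersetCard (q + 1), ∑ _i ∈ U, ∏ j ∈ U, t j := by
    rw [Finset.sum_sigma', Finset.sum_sigma']
    refine Finset.sum_nbij' (fun z => ⟨insert z.2 z.1, z.2⟩) (fun z => ⟨z.1.erase z.2, z.2⟩)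
      ?_ ?_ ?_ ?_ (fun _ _ => rfl)
    · rintro ⟨S, i⟩ hz
      simp only [Finset.mem_sigma, Finset.mem_powersetCard, Finset.mem_sdiff] at hz
      simp only [Finset.mem_sigma, Finset.mem_powersetCard]
      exact ⟨⟨Finset.insert_subset hz.2.1 hz.1.1, by rw [Finset.card_insert_of_notMem hz.2.2, hz.1.2]⟩,
        Finset.mem_insert_self _ _⟩
    · rintro ⟨U, i⟩ hz
      simp only [Finset.mem_sigma, Finset.mem_powersetCard] at hz
      simp only [Finset.mem_sigma, Finset.mem_powersetCard, Finset.mem_sdiff]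
      exact ⟨⟨(Finset.erase_subset _ _).trans hz.1.1,
        by rw [Finset.card_erase_of_mem hz.2, hz.1.2]; omega⟩, hz.1.1 hz.2, Finset.notMem_erase _ _⟩
    · rintro ⟨S, i⟩ hz
      simp only [Finset.mem_sigma, Finset.mem_sdiff] at hz
      simp [Finset.erase_insert hz.2.2]
    · rintro ⟨U, i⟩ hz
      simp only [Finset.mem_sigma] at hz
      simp [Finset.insert_erase hz.2]
  rw [Finset.mul_sum, Finset.sum_congr rfl h1, Finset.sum_add_distrib, h2, Finset.mul_sum]
  congr 1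
  refine Finset.sum_congr rfl fun U hU => ?_
  rw [Finset.sum_const, (Finset.mem_powersetCard.1 hU).2, nsmul_eq_mul]
  push_cast
  ring

theorem choose_mul_factorial_le (n q : ℕ) :
    (q.factorial : ℝ) / (n : ℝ) ^ q * (n.choose q : ℝ) ≤ 1 := by
  have h : (q.factorial : ℝ) * (n.choose q : ℝ) ≤ (n : ℝ) ^ q := by
    exact_mod_cast (Nat.descFactorial_eq_factorial_mul_choose n q).symm.le.trans
      (Nat.descFactorial_le_pow n q)
  rw [div_mul_eq_mul_div]
  rcases eq_or_lt_of_le (pow_nonneg (Nat.cast_nonneg n : (0 : ℝ) ≤ n) q) with e | e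
  · rw [← e, div_zero]; exact zero_le_one
  · exact (div_le_one e).2 h

theorem esymm_near_pow (t : ℕ → ℝ) (P : Finset ℕ) (hP : P.Nonempty) (ht : ∀ i, |t i| ≤ 1) :
    ∀ q : ℕ, |(q.factorial : ℝ) / (P.card : ℝ) ^ q * (∑ S ∈ P.powersetCard q, ∏ i ∈ S, t i) -
      ((P.card : ℝ)⁻¹ * ∑ i ∈ P, t i) ^ q| ≤ (q : ℝ) ^ 2 / P.card
  | 0 => by simp
  | q + 1 => by
    have ih := esymm_near_pow t P hP ht q
    have hn : (0 : ℝ) < P.card := by exact_mod_cast hP.card_pos
    set n : ℝ := (P.card : ℝ)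
    set T : ℝ := n⁻¹ * ∑ i ∈ P, t i
    set e : ℝ := ∑ S ∈ P.powersetCard q, ∏ i ∈ S, t i
    set R : ℝ := ∑ S ∈ P.powersetCard q, (∏ i ∈ S, t i) * ∑ i ∈ S, t i with hR
    have hrec := sum_mul_esymm t P q
    have hT : |T| ≤ 1 := by
      rw [abs_mul, abs_of_pos (inv_pos.2 hn), inv_mul_le_iff₀ hn, mul_one]
      refine (Finset.abs_sum_le_sum_abs _ _).trans
        ((Finset.sum_le_card_nsmul _ _ 1 fun i _ => ht i).trans ?_)
      simp [n]
    have hRb : |R| ≤ (P.card.choose q : ℝ) * q := by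
      rw [hR]
      refine (Finset.abs_sum_le_sum_abs _ _).trans
        ((Finset.sum_le_card_nsmul _ _ (q : ℝ) fun S hS => ?_).trans ?_)
      · rw [abs_mul, Finset.abs_prod]
        refine (mul_le_mul (Finset.prod_le_one (fun i _ => abs_nonneg _) fun i _ => ht i)
          ((Finset.abs_sum_le_sum_abs _ _).trans (Finset.sum_le_card_nsmul _ _ 1 fun i _ => ht i))
          (abs_nonneg _) zero_le_one).trans ?_
        simp [(Finset.mem_powersetCard.1 hS).2]
      · simp [Finset.card_powersetCard]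
    have key : ((q + 1).factorial : ℝ) / n ^ (q + 1) *
        (∑ S ∈ P.powersetCard (q + 1), ∏ i ∈ S, t i) =
        T * ((q.factorial : ℝ) / n ^ q * e) - (q.factorial : ℝ) / n ^ (q + 1) * R := by
      have h' : (∑ i ∈ P, t i) * e - R = (q + 1) * ∑ U ∈ P.powersetCard (q + 1), ∏ i ∈ U, t i := by
        rw [hrec]; ring
      rw [Nat.factorial_succ]
      push_cast
      calc _ = (q.factorial : ℝ) / n ^ (q + 1) *
            (((q : ℝ) + 1) * ∑ U ∈ P.powersetCard (q + 1), ∏ i ∈ U, t i) := by ring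
        _ = _ := by
          rw [← h', show T = n⁻¹ * ∑ i ∈ P, t i from rfl]
          ring
    rw [key, show T * ((q.factorial : ℝ) / n ^ q * e) - (q.factorial : ℝ) / n ^ (q + 1) * R - T ^ (q + 1)
      = T * ((q.factorial : ℝ) / n ^ q * e - T ^ q) - (q.factorial : ℝ) / n ^ (q + 1) * R by ring]
    refine (abs_sub _ _).trans ?_
    rw [abs_mul T, abs_mul ((q.factorial : ℝ) / n ^ (q + 1)) R,
      abs_of_nonneg (by positivity : (0 : ℝ) ≤ (q.factorial : ℝ) / n ^ (q + 1))]
    calc |T| * |(q.factorial : ℝ) / n ^ q * e - T ^ q| + (q.factorial : ℝ) / n ^ (q + 1) * |R|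
        ≤ 1 * ((q : ℝ) ^ 2 / n) + (q.factorial : ℝ) / n ^ (q + 1) * ((P.card.choose q : ℝ) * q) := by
          gcongr
      _ = (q : ℝ) ^ 2 / n + ((q.factorial : ℝ) / n ^ q * (P.card.choose q : ℝ)) * ((q : ℝ) / n) := by
          ring
      _ ≤ (q : ℝ) ^ 2 / n + 1 * ((q : ℝ) / n) := by
          gcongr
          exact choose_mul_factorial_le _ _
      _ ≤ ((q + 1 : ℕ) : ℝ) ^ 2 / n := by
          rw [one_mul, ← add_div]
          gcongr
          push_cast
          nlinarith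

theorem sum_signs_sq (t : ℕ → ℝ) (P : Finset ℕ) : ∀ c : ℝ,
    ∑ J ∈ P.powerset, (c + (∑ i ∈ J, t i - ∑ i ∈ P \ J, t i)) ^ 2 =
      2 ^ P.card * (c ^ 2 + ∑ i ∈ P, t i ^ 2) := by
  classical
  induction P using Finset.induction_on with
  | empty => simp
  | insert a P ha ih =>
    intro c
    rw [Finset.sum_powerset_insert ha]
    have e1 : ∀ J ∈ P.powerset, (c + (∑ i ∈ J, t i - ∑ i ∈ insert a P \ J, t i)) ^ 2 =
        ((c - t a) + (∑ i ∈ J, t i - ∑ i ∈ P \ J, t i)) ^ 2 := fun J hJ => by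
      have haJ : a ∉ J := fun h => ha (Finset.mem_powerset.1 hJ h)
      rw [Finset.insert_sdiff_of_notMem _ haJ,
        Finset.sum_insert fun h => ha (Finset.mem_sdiff.1 h).1]
      ring
    have e2 : ∀ J ∈ P.powerset,
        (c + (∑ i ∈ insert a J, t i - ∑ i ∈ insert a P \ insert a J, t i)) ^ 2 =
        ((c + t a) + (∑ i ∈ J, t i - ∑ i ∈ P \ J, t i)) ^ 2 := fun J hJ => by
      have haJ : a ∉ J := fun h => ha (Finset.mem_powerset.1 hJ h)
      rw [show insert a P \ insert a J = P \ J by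
          ext x
          simp only [Finset.mem_sdiff, Finset.mem_insert]
          by_cases hx : x = a
          · subst hx; simp [ha, haJ]
          · simp [hx],
        Finset.sum_insert haJ]
      ring
    rw [Finset.sum_congr rfl e1, Finset.sum_congr rfl e2, ih, ih,
      Finset.card_insert_of_notMem ha, Finset.sum_insert ha]
    ring

theorem sum_abs_signs (t : ℕ → ℝ) (P : Finset ℕ) (ht : ∀ i, |t i| ≤ 1) :
    ∑ J ∈ P.powerset, |∑ i ∈ J, t i - ∑ i ∈ P \ J, t i| ≤ 2 ^ P.card * √(P.card : ℝ) := by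
  rcases P.eq_empty_or_nonempty with rfl | hP
  · simp
  have hn : 0 < √(P.card : ℝ) := Real.sqrt_pos.2 (by exact_mod_cast hP.card_pos)
  set r := √(P.card : ℝ)
  have hr : r ^ 2 = P.card := Real.sq_sqrt (Nat.cast_nonneg _)
  have h2 := sum_signs_sq t P 0
  simp only [zero_add, ne_eq, OfNat.ofNat_ne_zero, not_false_eq_true, zero_pow] at h2
  have ht2 : ∑ i ∈ P, t i ^ 2 ≤ r ^ 2 := by
    rw [hr]
    refine (Finset.sum_le_card_nsmul _ _ 1 fun i _ => ?_).trans (by simp)
    nlinarith [ht i, abs_nonneg (t i), sq_abs (t i)]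
  calc ∑ J ∈ P.powerset, |∑ i ∈ J, t i - ∑ i ∈ P \ J, t i|
      ≤ ∑ J ∈ P.powerset, ((∑ i ∈ J, t i - ∑ i ∈ P \ J, t i) ^ 2 / (2 * r) + r / 2) := by
        refine Finset.sum_le_sum fun J _ => ?_
        rw [div_add_div _ _ (by positivity) two_ne_zero, le_div_iff₀ (by positivity)]
        nlinarith [sq_nonneg (|∑ i ∈ J, t i - ∑ i ∈ P \ J, t i| - r),
          sq_abs (∑ i ∈ J, t i - ∑ i ∈ P \ J, t i)]
    _ = 2 ^ P.card * (∑ i ∈ P, t i ^ 2) / (2 * r) + 2 ^ P.card * (r / 2) := by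
        rw [Finset.sum_add_distrib, ← Finset.sum_div, h2, Finset.sum_const, Finset.card_powerset,
          nsmul_eq_mul]
        push_cast
        ring
    _ ≤ 2 ^ P.card * r ^ 2 / (2 * r) + 2 ^ P.card * (r / 2) := by gcongr
    _ = 2 ^ P.card * r := by field_simp; ring

/-- The Lipschitz constant of a polynomial on a ball. -/
def lipC (p : Polynomial ℝ) (L : ℝ) : ℝ :=
  ∑ k ∈ Finset.range (p.natDegree + 1), |p.coeff k| * (k * L ^ k)

theorem lipC_nonneg (p : Polynomial ℝ) {L : ℝ} (hL : 0 ≤ L) : 0 ≤ lipC p L :=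
  Finset.sum_nonneg fun k _ => by positivity

variable {τ : C →ₗ[ℂ] ℂ}

theorem l2_pow_sub (hτ : IsTr τ) {x : C} {d L : ℝ} (hL : 1 ≤ L) (hx : ‖x‖ ≤ L) (hd : |d| ≤ L) :
    ∀ k : ℕ, l2 τ (x ^ k - (d ^ k) • (1 : C)) ≤ k * L ^ k * l2 τ (x - d • (1 : C))
  | 0 => by simp [hτ.l2_zero]
  | k + 1 => by
    have ih := l2_pow_sub hτ hL hx hd k
    have e : x ^ (k + 1) - (d ^ (k + 1)) • (1 : C) =
        x ^ k * (x - d • (1 : C)) + d • (x ^ k - (d ^ k) • (1 : C)) := by
      rw [mul_sub, mul_smul_comm, mul_one, ← pow_succ, smul_sub, smul_smul, ← pow_succ']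
      abel
    rw [e]
    refine (hτ.l2_add_le _ _).trans ?_
    rw [hτ.l2_rsmul]
    have hL0 : 0 ≤ L := zero_le_one.trans hL
    have hl := l2_nonneg τ (x - d • (1 : C))
    calc l2 τ (x ^ k * (x - d • (1 : C))) + |d| * l2 τ (x ^ k - (d ^ k) • (1 : C))
        ≤ L ^ k * l2 τ (x - d • (1 : C)) + L * (k * L ^ k * l2 τ (x - d • (1 : C))) := by
          refine add_le_add ((hτ.l2_mul_le _ _).trans
            (mul_le_mul_of_nonneg_right (norm_pow_le_pow hL0 hx k) hl)) ?_
          exact mul_le_mul hd ih (l2_nonneg τ _) hL0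
      _ ≤ L ^ (k + 1) * l2 τ (x - d • (1 : C)) + L * (k * L ^ k * l2 τ (x - d • (1 : C))) :=
          add_le_add (mul_le_mul_of_nonneg_right (pow_le_pow_right₀ hL (Nat.le_succ k)) hl) le_rfl
      _ = _ := by push_cast; ring

theorem l2_raeval_sub (hτ : IsTr τ) (p : Polynomial ℝ) {x : C} {d L : ℝ} (hL : 1 ≤ L)
    (hx : ‖x‖ ≤ L) (hd : |d| ≤ L) :
    l2 τ (Polynomial.aeval x p - p.eval d • (1 : C)) ≤ lipC p L * l2 τ (x - d • (1 : C)) := by
  rw [Polynomial.aeval_eq_sum_range, Polynomial.eval_eq_sum_range, Finset.sum_smul,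
    ← Finset.sum_sub_distrib, lipC, Finset.sum_mul]
  refine (hτ.l2_sum_le _ _).trans (Finset.sum_le_sum fun k _ => ?_)
  rw [mul_smul, ← smul_sub, hτ.l2_rsmul, mul_assoc]
  exact mul_le_mul_of_nonneg_left (l2_pow_sub hτ hL hx hd k) (abs_nonneg _)

theorem abs_eval_le (p : Polynomial ℝ) {d : ℝ} (hd : |d| ≤ 1) : |p.eval d| ≤ polyBd p 1 := by
  rw [Polynomial.eval_eq_sum_range]
  refine (Finset.abs_sum_le_sum_abs _ _).trans (Finset.sum_le_sum fun k _ => ?_)
  rw [abs_mul, abs_pow]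
  exact mul_le_mul_of_nonneg_left (pow_le_pow_left₀ (abs_nonneg _) hd k) (abs_nonneg _)

/-! ### The main estimate -/

/-- The normalised symmetric product of degree `q`. -/
def sprod (y : ℕ → β → C) (n q : ℕ) (K : Finset ℕ) (b : β) : C :=
  √((q.factorial : ℝ) / (n : ℝ) ^ q) • ∑ S ∈ K.powersetCard q, prodOn y S b

namespace Copies

variable {M : ℝ} {y : ℕ → β → C} {alg : Set ℕ → StarSubalgebra ℂ C}

theorem tr_sprod (h : Copies τ M y alg) (n q r : ℕ) (K : Finset ℕ) (a b : β) :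
    (τ (sprod y n q K a * sprod y n r K b)).re =
      if q = r then (q.factorial : ℝ) / (n : ℝ) ^ q *
        ∑ S ∈ K.powersetCard q, ∏ i ∈ S, (τ (y i a * y i b)).re else 0 := by
  classical
  have hprod : ∀ S : Finset ℕ, (∏ i ∈ S, τ (y i a * y i b)).re =
      ∏ i ∈ S, (τ (y i a * y i b)).re := fun S => by
    conv_lhs => rw [Finset.prod_congr rfl fun i _ => h.tr_mul_eq i a b, ← Complex.ofReal_prod]
    exact Complex.ofReal_re _
  simp only [sprod, smul_mul_smul_comm, LinearMap.map_smul_of_tower, Complex.real_smul,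
    Complex.re_ofReal_mul, Finset.sum_mul_sum, map_sum, h.tr_prodOn_mul, Complex.re_sum]
  by_cases hqr : q = r
  · subst hqr
    rw [if_pos rfl, Real.mul_self_sqrt (by positivity)]
    congr 1
    refine Finset.sum_congr rfl fun S hS => ?_
    rw [Finset.sum_eq_single_of_mem S hS fun T _ hT => by rw [if_neg hT.symm]; exact Complex.zero_re,
      if_pos rfl, hprod]
  · rw [if_neg hqr]
    refine mul_eq_zero_of_right _ (Finset.sum_eq_zero fun S hS => Finset.sum_eq_zero fun T hT => ?_)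
    rw [if_neg fun e => hqr (by
      rw [← (Finset.mem_powersetCard.1 hS).2, e, (Finset.mem_powersetCard.1 hT).2])]
    exact Complex.zero_re

theorem sa_sprod (h : Copies τ M y alg) (n q : ℕ) (K : Finset ℕ) (b : β) :
    IsSelfAdjoint (sprod y n q K b) :=
  (IsSelfAdjoint.all _).smul (isSelfAdjoint_sum _ fun S _ => h.sa_prodOn S b)

theorem mem_sprod (h : Copies τ M y alg) (n q : ℕ) (K : Finset ℕ) (b : β) :
    sprod y n q K b ∈ alg (K : Set ℕ) :=
  mem_rsmul _ (h.mem_prodSum K q b)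

theorem l2_sprod_le (h : Copies τ M y alg) {n q : ℕ} {K : Finset ℕ} (hK : K.card ≤ n) (b : β) :
    l2 τ (sprod y n q K b) ≤ 1 := by
  have h2 := h.tr.sa_sq (h.sa_sprod n q K b)
  rw [h.tr_sprod, if_pos rfl] at h2
  simp only [h.mean_sq, Complex.one_re, Finset.prod_const_one, Finset.sum_const, nsmul_eq_mul,
    mul_one, Finset.card_powersetCard] at h2
  have h3 : l2 τ (sprod y n q K b) ^ 2 ≤ 1 := by
    rw [h2]
    refine le_trans ?_ (choose_mul_factorial_le n q)
    gcongr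
  exact (sq_le_one_iff₀ (l2_nonneg τ _)).1 h3

theorem l2_indep_mul (h : Copies τ M y alg) {J J' : Set ℕ} (hd : Disjoint J J') {x w : C}
    (hx : x ∈ alg J) (hw : w ∈ alg J') : l2 τ (x * w) = l2 τ x * l2 τ w := by
  refine (pow_left_inj₀ (l2_nonneg τ _) (mul_nonneg (l2_nonneg τ _) (l2_nonneg τ _)) two_ne_zero).1 ?_
  rw [mul_pow, h.tr.l2_sq, h.tr.l2_sq, h.tr.l2_sq]
  have e : τ (star (x * w) * (x * w)) = τ (star x * x) * τ (star w * w) := by
    rw [star_mul, ← h.indep J J' hd _ (mul_mem (star_mem hx) hx) _ (mul_mem (star_mem hw) hw)]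
    calc τ (star w * star x * (x * w)) = τ (star x * (x * w) * star w) := by
          rw [mul_assoc, h.tr.comm]
      _ = τ (star x * x * (w * star w)) := by simp only [mul_assoc]
      _ = τ (star x * x) * τ (w * star w) :=
          h.indep J J' hd _ (mul_mem (star_mem hx) hx) _ (mul_mem hw (star_mem hw))
      _ = τ (star x * x) * τ (star w * w) := by rw [h.tr.comm w]
      _ = τ (star x * x * (star w * w)) :=
          (h.indep J J' hd _ (mul_mem (star_mem hx) hx) _ (mul_mem (star_mem hw) hw)).symm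
  rw [e, Complex.mul_re,
    (Complex.nonneg_iff.1 (h.tr.nonneg x)).2.symm, zero_mul, sub_zero]

theorem l2_corr_sub (h : Copies τ M y alg) {P : Finset ℕ} (hP : P.Nonempty) (a b : β) :
    ∑ J ∈ P.powerset, l2 τ (corr y P.card J a b - kernel τ y P a b • (1 : C)) ≤
      2 ^ P.card * ((2 * M ^ 2 + 3) / √(P.card : ℝ)) := by
  classical
  set t : ℕ → ℝ := fun i => (τ (y i a * y i b)).re with ht
  set B : ℝ := 2 * M ^ 2 + 2 with hB
  have hB0 : 0 ≤ B := by positivity
  set n : ℝ := (P.card : ℝ)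
  have hn : 0 < n := by simp only [n]; exact_mod_cast hP.card_pos
  let x : ℕ → C := fun i => y i a * y i b + y i b * y i a - (2 * t i) • (1 : C)
  have hxm : ∀ i, x i ∈ alg {i} := fun i =>
    sub_mem (add_mem (mul_mem (h.mem _ i a rfl) (h.mem _ i b rfl))
      (mul_mem (h.mem _ i b rfl) (h.mem _ i a rfl))) (mem_rsmul _ (one_mem _))
  have hx0 : ∀ i, τ (x i) = 0 := fun i => by
    simp only [x, map_sub, map_add, h.tr.comm (y i b) (y i a), LinearMap.map_smul_of_tower, h.tr.one,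
      Complex.real_smul, mul_one]
    rw [h.tr_mul_eq i a b]
    simp only [ht, Complex.ofReal_mul, Complex.ofReal_ofNat]
    ring
  have hxn : ∀ i, ‖x i‖ ≤ B := fun i => by
    refine (norm_sub_le _ _).trans (add_le_add ?_ ?_)
    · refine (norm_add_le _ _).trans ?_
      nlinarith [norm_mul_le (y i a) (y i b), norm_mul_le (y i b) (y i a),
        mul_le_mul (h.norm_le i a) (h.norm_le i b) (norm_nonneg _)
          ((norm_nonneg _).trans (h.norm_le i a))]
    · rw [norm_smul, Real.norm_eq_abs, abs_mul, abs_two]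
      nlinarith [norm_one_le_one (C := C), norm_nonneg (1 : C), h.abs_cov_le i a b,
        abs_nonneg (t i)]
  have hsum : ∀ J, J ⊆ P → l2 τ (∑ i ∈ J, x i) ≤ √n * B := by
    intro J hJ
    refine (sq_le_sq₀ (l2_nonneg τ _) (by positivity)).1 ?_
    rw [h.tr.l2_sq, mul_pow, Real.sq_sqrt hn.le, star_sum, Finset.sum_mul_sum]
    simp only [map_sum, Complex.re_sum]
    calc ∑ i ∈ J, ∑ j ∈ J, (τ (star (x i) * x j)).re
        = ∑ i ∈ J, (τ (star (x i) * x i)).re := by
          refine Finset.sum_congr rfl fun i hi => Finset.sum_eq_single_of_mem i hi fun j _ hji => ?_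
          rw [h.indep {i} {j} (Set.disjoint_singleton.2 (Ne.symm hji)) _ (star_mem (hxm i)) _ (hxm j),
            hx0, mul_zero, Complex.zero_re]
      _ ≤ J.card • B ^ 2 := Finset.sum_le_card_nsmul _ _ _ fun i _ => by
          rw [← h.tr.l2_sq]
          exact pow_le_pow_left₀ (l2_nonneg τ _) ((h.tr.l2_le_norm _).trans (hxn i)) 2
      _ ≤ n * B ^ 2 := by
          rw [nsmul_eq_mul]
          gcongr
          simp only [n]
          exact_mod_cast Finset.card_le_card hJ
  have hJ : ∀ J ∈ P.powerset, l2 τ (corr y P.card J a b - kernel τ y P a b • (1 : C)) ≤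
      n⁻¹ * (√n * B) + n⁻¹ * |∑ i ∈ J, t i - ∑ i ∈ P \ J, t i| := by
    intro J hJ
    rw [Finset.mem_powerset] at hJ
    have e : corr y P.card J a b - kernel τ y P a b • (1 : C) =
        n⁻¹ • (∑ i ∈ J, x i) + (n⁻¹ * (∑ i ∈ J, t i - ∑ i ∈ P \ J, t i)) • (1 : C) := by
      rw [corr, kernel, ← Finset.sum_sdiff hJ]
      simp only [x, n, ht, Finset.sum_sub_distrib, ← Finset.sum_smul, ← Finset.mul_sum]
      module
    rw [e]
    refine (h.tr.l2_add_le _ _).trans (add_le_add ?_ (le_of_eq ?_))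
    · rw [h.tr.l2_rsmul, abs_of_pos (inv_pos.2 hn)]
      exact mul_le_mul_of_nonneg_left (hsum J hJ) (inv_nonneg.2 hn.le)
    · rw [h.tr.l2_rsmul, h.tr.l2_one, mul_one, abs_mul, abs_of_pos (inv_pos.2 hn)]
  refine (Finset.sum_le_sum hJ).trans ?_
  rw [Finset.sum_add_distrib, Finset.sum_const, Finset.card_powerset, nsmul_eq_mul, ← Finset.mul_sum]
  push_cast
  refine (add_le_add le_rfl (mul_le_mul_of_nonneg_left
    (sum_abs_signs t P fun i => h.abs_cov_le i a b) (inv_nonneg.2 hn.le))).trans ?_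
  apply le_of_eq
  show 2 ^ P.card * (n⁻¹ * (√n * B)) + n⁻¹ * (2 ^ P.card * √n) = _
  have e : n⁻¹ * √n = (√n)⁻¹ := by
    rw [← div_eq_inv_mul, Real.sqrt_div_self]
  rw [hB, div_eq_mul_inv, ← e]
  ring

/-- The error constant at degree `q`. -/
def errC (p : Polynomial ℝ) (M : ℝ) (q : ℕ) : ℝ :=
  2 ^ q * (lipC p ((2 * M ^ 2 + 1) ^ q) * (q * (2 * M ^ 2 + 1) ^ q * (2 * M ^ 2 + 3)))

theorem errC_nonneg (p : Polynomial ℝ) (M : ℝ) (q : ℕ) : 0 ≤ errC p M q :=
  mul_nonneg (by positivity) (mul_nonneg (lipC_nonneg p (by positivity)) (by positivity))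

theorem l2_pcomp_sub (h : Copies τ M y alg) (p : Polynomial ℝ) (q : ℕ) {P : Finset ℕ}
    (hP : P.Nonempty) (hq : q ≤ P.card) (F : Finset β) (b : β) :
    l2 τ (pcomp p y q P F b -
      p.eval (deg (fun x z => kernel τ y P x z ^ q) F b) • sprod y P.card q P b) ≤
      errC p M q / √(P.card : ℝ) := by
  classical
  set d := deg (fun x z => kernel τ y P x z ^ q) F b with hd
  set c := p.eval d with hc
  set r := √((q.factorial : ℝ) / (P.card : ℝ) ^ q)
  have hcount : ∑ J ∈ P.powerset, ∑ S ∈ (P \ J).powersetCard q, prodOn y S b =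
      (2 : ℝ) ^ (P.card - q) • ∑ S ∈ P.powersetCard q, prodOn y S b := by
    rw [Finset.smul_sum, Finset.sum_comm' (t' := P.powersetCard q) (s' := fun S => (P \ S).powerset)]
    · refine Finset.sum_congr rfl fun S hS => ?_
      rw [Finset.sum_const, Finset.card_powerset, Finset.card_sdiff_of_subset
        (Finset.mem_powersetCard.1 hS).1, (Finset.mem_powersetCard.1 hS).2,
        ← Nat.cast_smul_eq_nsmul ℝ]
      push_cast
      rfl
    · intro J S
      simp only [Finset.mem_powerset, Finset.mem_powersetCard, Finset.subset_sdiff]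
      constructor
      · rintro ⟨h1, ⟨h2, h3⟩, h4⟩; exact ⟨⟨h1, h3.symm⟩, h2, h4⟩
      · rintro ⟨⟨h1, h2⟩, h3, h4⟩; exact ⟨h1, ⟨h3, h2.symm⟩, h4⟩
  have e : pcomp p y q P F b - c • sprod y P.card q P b =
      ((2 : ℝ) ^ q / 2 ^ P.card) • ∑ J ∈ P.powerset, sprod y P.card q (P \ J) b *
        (Polynomial.aeval (degHat y P.card q J F b) p - c • (1 : C)) := by
    have e1 : ∑ J ∈ P.powerset, sprod y P.card q (P \ J) b * (c • (1 : C)) =
        (c * 2 ^ (P.card - q)) • sprod y P.card q P b := by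
      simp only [sprod, mul_smul_comm, mul_one, ← Finset.smul_sum, hcount, smul_smul]
      ring_nf
    have e2 : (2 : ℝ) ^ q / 2 ^ P.card * (c * 2 ^ (P.card - q)) = c := by
      have : (2 : ℝ) ^ P.card = 2 ^ q * 2 ^ (P.card - q) := by
        rw [← pow_add, Nat.add_sub_cancel' hq]
      rw [this]
      field_simp
    simp only [mul_sub, Finset.sum_sub_distrib, smul_sub, e1, smul_smul, e2]
    congr 1
    simp only [pcomp, sprod, smul_mul_assoc, ← Finset.smul_sum, smul_smul]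
  rw [e, h.tr.l2_rsmul, abs_of_nonneg (by positivity)]
  have hterm : ∀ J ∈ P.powerset, l2 τ (sprod y P.card q (P \ J) b *
      (Polynomial.aeval (degHat y P.card q J F b) p - c • (1 : C))) ≤
      lipC p ((2 * M ^ 2 + 1) ^ q) * ((F.card : ℝ)⁻¹ * ∑ z ∈ F, q * (2 * M ^ 2 + 1) ^ q *
        l2 τ (corr y P.card J b z - kernel τ y P b z • (1 : C))) := by
    intro J hJ
    rw [Finset.mem_powerset] at hJ
    rw [h.l2_indep_mul (disjoint_sdiff_coe P J) (h.mem_sprod _ _ _ b)
      (sub_mem (h.mem_weight p _ _ J F b) (mem_rsmul _ (one_mem _)))]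
    refine (mul_le_of_le_one_left (l2_nonneg τ _)
      (h.l2_sprod_le (Finset.card_le_card Finset.sdiff_subset) b)).trans ?_
    have hL1 : (1 : ℝ) ≤ 2 * M ^ 2 + 1 := by nlinarith
    have hD : ‖degHat y P.card q J F b‖ ≤ (2 * M ^ 2 + 1) ^ q :=
      (norm_degHat_le h.norm_le (Finset.card_le_card hJ) q F b).trans
        (pow_le_pow_left₀ (by positivity) (by linarith) q)
    have hd1 : |d| ≤ (2 * M ^ 2 + 1) ^ q := by
      refine le_trans ?_ (one_le_pow₀ hL1)
      rw [hd, deg, abs_mul, abs_of_nonneg (by positivity)]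
      rcases F.eq_empty_or_nonempty with rfl | hF
      · simp
      rw [inv_mul_le_iff₀ (by exact_mod_cast hF.card_pos), mul_one]
      refine (Finset.abs_sum_le_sum_abs _ _).trans
        ((Finset.sum_le_card_nsmul _ _ 1 fun z _ => ?_).trans (by simp))
      rw [abs_pow]
      exact pow_le_one₀ (abs_nonneg _) ((h.goodKernel P hP).abs_le b z)
    refine (l2_raeval_sub h.tr p (one_le_pow₀ hL1) hD hd1).trans ?_
    refine mul_le_mul_of_nonneg_left ?_ (lipC_nonneg p (by positivity))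
    have e3 : degHat y P.card q J F b - d • (1 : C) = (F.card : ℝ)⁻¹ •
        ∑ z ∈ F, (corr y P.card J b z ^ q - (kernel τ y P b z ^ q) • (1 : C)) := by
      rw [degHat, hd, deg, Finset.sum_sub_distrib, smul_sub, ← Finset.sum_smul, smul_smul]
    rw [e3, h.tr.l2_rsmul, abs_of_nonneg (by positivity)]
    refine mul_le_mul_of_nonneg_left ((h.tr.l2_sum_le _ _).trans (Finset.sum_le_sum fun z _ => ?_))
      (by positivity)
    exact l2_pow_sub h.tr hL1 ((norm_corr_le h.norm_le (Finset.card_le_card hJ) b z).trans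
      (by linarith)) (((h.goodKernel P hP).abs_le b z).trans hL1) q
  refine (mul_le_mul_of_nonneg_left ((h.tr.l2_sum_le _ _).trans (Finset.sum_le_sum hterm))
    (by positivity)).trans ?_
  rw [← Finset.mul_sum, ← Finset.mul_sum, Finset.sum_comm]
  simp only [← Finset.mul_sum]
  set L := (2 * M ^ 2 + 1) ^ q
  set K := (2 * M ^ 2 + 3) / √(P.card : ℝ) with hK
  have hF : (F.card : ℝ)⁻¹ * ∑ z ∈ F, ∑ J ∈ P.powerset,
      l2 τ (corr y P.card J b z - kernel τ y P b z • (1 : C)) ≤ 2 ^ P.card * K := by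
    rcases F.eq_empty_or_nonempty with rfl | hF
    · simp [hK]; positivity
    rw [inv_mul_le_iff₀ (by exact_mod_cast hF.card_pos)]
    exact (Finset.sum_le_card_nsmul _ _ _ fun z _ => h.l2_corr_sub hP b z).trans
      (by rw [nsmul_eq_mul])
  have hl := lipC_nonneg p (by positivity : 0 ≤ L)
  calc (2 : ℝ) ^ q / 2 ^ P.card * (lipC p L * ((F.card : ℝ)⁻¹ * ((q : ℝ) * L *
          ∑ z ∈ F, ∑ J ∈ P.powerset, l2 τ (corr y P.card J b z - kernel τ y P b z • (1 : C)))))
      = (2 : ℝ) ^ q / 2 ^ P.card * lipC p L * ((q : ℝ) * L) * ((F.card : ℝ)⁻¹ *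
          ∑ z ∈ F, ∑ J ∈ P.powerset, l2 τ (corr y P.card J b z - kernel τ y P b z • (1 : C))) := by
        ring
    _ ≤ (2 : ℝ) ^ q / 2 ^ P.card * lipC p L * ((q : ℝ) * L) * (2 ^ P.card * K) := by gcongr
    _ = errC p M q / √(P.card : ℝ) := by
        rw [errC, hK]
        field_simp
        simp only [L]
        ring

end Copies

theorem abs_deg_le {T : β → β → ℝ} (hT : GoodKernel T) (q : ℕ) (F : Finset β) (b : β) :
    |deg (fun x z => T x z ^ q) F b| ≤ 1 := by
  rw [deg, abs_mul, abs_of_nonneg (by positivity)]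
  rcases F.eq_empty_or_nonempty with rfl | hF
  · simp
  rw [inv_mul_le_iff₀ (by exact_mod_cast hF.card_pos), mul_one]
  refine (Finset.abs_sum_le_sum_abs _ _).trans
    ((Finset.sum_le_card_nsmul _ _ 1 fun z _ => ?_).trans (by simp))
  rw [abs_pow]
  exact pow_le_one₀ (abs_nonneg _) (hT.abs_le b z)

theorem exists_pool_size (p : Polynomial ℝ) (I N : ℕ) (hI : 1 ≤ I) (hN : 1 ≤ N) (M δ : ℝ)
    (hδ : 0 < δ) :
    ∃ n : ℕ, 1 ≤ n ∧ ∀ (C : Type*) [CStarAlgebra C] (β : Type*) (τ : C →ₗ[ℂ] ℂ) (y : ℕ → β → C)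
      (alg : Set ℕ → StarSubalgebra ℂ C), Copies τ M y alg → ∀ (P : Finset ℕ), P.card = n →
      ∀ F F' : Finset β, F.card = N → F'.card = N →
        |(τ (pvec p I y P F * pvec p I y P F')).re - scaleForm p I (kernel τ y P) F F'| ≤ δ := by
  set W : ℝ := polyBd p 1
  have hW : 0 ≤ W := Finset.sum_nonneg fun k _ => by positivity
  set E : ℝ := ∑ i ∈ Finset.range I, Copies.errC p M (2 ^ (i + 1))
  have hE : 0 ≤ E := Finset.sum_nonneg fun i _ => Copies.errC_nonneg p M _
  set Q : ℝ := ((2 : ℝ) ^ I) ^ 2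
  set K : ℝ := E * (√(I : ℝ) * W + E) + √(I : ℝ) * W * E + W ^ 2 * Q
  obtain ⟨n₀, hn₀⟩ := exists_nat_ge ((K / δ) ^ 2)
  refine ⟨max (2 ^ I) n₀, le_max_of_le_left Nat.one_le_two_pow, ?_⟩
  intro C _ β τ y alg h P hP F F' hF hF'
  have hIq : ∀ i < I, 2 ^ (i + 1) ≤ P.card := fun i hi =>
    (Nat.pow_le_pow_right two_pos (by omega)).trans (hP ▸ le_max_left _ _)
  have hPne : P.Nonempty := Finset.card_pos.1 (by
    rw [hP]; exact lt_of_lt_of_le (Nat.one_le_two_pow) (le_max_left _ _))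
  set n : ℝ := (P.card : ℝ) with hn
  have hn1 : (1 : ℝ) ≤ n := by rw [hn]; exact_mod_cast hPne.card_pos
  have hsn : 1 ≤ √n := Real.one_le_sqrt.2 hn1
  have hT := h.goodKernel P hPne
  let w : ℕ → Finset β → β → ℝ := fun i A b =>
    p.eval (deg (fun x z => kernel τ y P x z ^ 2 ^ (i + 1)) A b)
  have hw : ∀ i A b, |w i A b| ≤ W := fun i A b => abs_eval_le p (abs_deg_le hT _ A b)
  let u : Finset β → C := fun A => ((√(I : ℝ))⁻¹ * (A.card : ℝ)⁻¹) •
    ∑ i ∈ Finset.range I, ∑ b ∈ A, w i A b • sprod y P.card (2 ^ (i + 1)) P b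
  have hsI : 1 ≤ √(I : ℝ) := Real.one_le_sqrt.2 (by exact_mod_cast hI)
  have hNpos : (0 : ℝ) < N := by exact_mod_cast hN
  have hu : ∀ A : Finset β, A.card = N → l2 τ (u A) ≤ √(I : ℝ) * W := by
    intro A hA
    rw [h.tr.l2_rsmul, abs_of_nonneg (by positivity)]
    calc (√(I : ℝ))⁻¹ * (A.card : ℝ)⁻¹ *
          l2 τ (∑ i ∈ Finset.range I, ∑ b ∈ A, w i A b • sprod y P.card (2 ^ (i + 1)) P b)
        ≤ (√(I : ℝ))⁻¹ * (A.card : ℝ)⁻¹ * ∑ i ∈ Finset.range I, ∑ b ∈ A, W * 1 := by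
          gcongr
          refine (h.tr.l2_sum_le _ _).trans (Finset.sum_le_sum fun i _ =>
            (h.tr.l2_sum_le _ _).trans (Finset.sum_le_sum fun b _ => ?_))
          rw [h.tr.l2_rsmul]
          exact mul_le_mul (hw i A b) (h.l2_sprod_le le_rfl b) (l2_nonneg τ _) hW
      _ = ((√(I : ℝ))⁻¹ * I) * W := by
          simp [hA]
          field_simp
      _ = √(I : ℝ) * W := by rw [← div_eq_inv_mul, Real.div_sqrt]
  have hdiff : ∀ A : Finset β, A.card = N → l2 τ (pvec p I y P A - u A) ≤ E / √n := by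
    intro A hA
    have e : pvec p I y P A - u A = ((√(I : ℝ))⁻¹ * (A.card : ℝ)⁻¹) •
        ∑ i ∈ Finset.range I, ∑ b ∈ A,
          (pcomp p y (2 ^ (i + 1)) P A b - w i A b • sprod y P.card (2 ^ (i + 1)) P b) := by
      simp only [pvec, u, Finset.sum_sub_distrib, smul_sub]
    rw [e, h.tr.l2_rsmul, abs_of_nonneg (by positivity)]
    calc _ ≤ (√(I : ℝ))⁻¹ * (A.card : ℝ)⁻¹ *
          ∑ i ∈ Finset.range I, ∑ _b ∈ A, Copies.errC p M (2 ^ (i + 1)) / √n := by
          gcongr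
          refine (h.tr.l2_sum_le _ _).trans (Finset.sum_le_sum fun i hi =>
            (h.tr.l2_sum_le _ _).trans (Finset.sum_le_sum fun b _ => ?_))
          exact h.l2_pcomp_sub p _ hPne (hIq i (Finset.mem_range.1 hi)) A b
      _ = (√(I : ℝ))⁻¹ * (E / √n) := by
          simp only [Finset.sum_const, nsmul_eq_mul, hA, ← Finset.mul_sum, ← Finset.sum_div, E]
          field_simp
      _ ≤ 1 * (E / √n) := by
          gcongr
          exact inv_le_one_of_one_le₀ hsI
      _ = E / √n := one_mul _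
  have huu : |(τ (u F * u F')).re - scaleForm p I (kernel τ y P) F F'| ≤ W ^ 2 * Q / √n := by
    have e1 : (τ (u F * u F')).re = (I : ℝ)⁻¹ * ∑ i ∈ Finset.range I, ((F.card : ℝ) * F'.card)⁻¹ *
        ∑ a ∈ F, ∑ b ∈ F', w i F a * w i F' b * ((((2 ^ (i + 1))).factorial : ℝ) /
          n ^ (2 ^ (i + 1)) *
            ∑ S ∈ P.powersetCard (2 ^ (i + 1)), ∏ k ∈ S, (τ (y k a * y k b)).re) := by
      simp only [u, smul_mul_smul_comm, Finset.sum_mul_sum, map_sum, LinearMap.map_smul_of_tower,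
        Complex.real_smul, Complex.re_ofReal_mul, Complex.re_sum, h.tr_sprod, hF, hF']
      have hs : (√(I : ℝ))⁻¹ * (N : ℝ)⁻¹ * ((√(I : ℝ))⁻¹ * (N : ℝ)⁻¹) =
          (I : ℝ)⁻¹ * ((N : ℝ) * N)⁻¹ := by
        rw [mul_mul_mul_comm, ← mul_inv, Real.mul_self_sqrt (Nat.cast_nonneg _), ← mul_inv]
      rw [hs, mul_assoc, ← Finset.mul_sum]
      congr 2
      refine Finset.sum_congr rfl fun i hi => ?_
      rw [Finset.sum_eq_single_of_mem i hi fun j _ hji => ?_]
      · simp [n, mul_assoc]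
      · refine Finset.sum_eq_zero fun a _ => Finset.sum_eq_zero fun b _ => ?_
        rw [if_neg fun e => hji ((Nat.succ_injective (Nat.pow_right_injective le_rfl e)).symm),
          mul_zero]
    rw [e1, scaleForm, ← mul_sub, ← Finset.sum_sub_distrib, abs_mul,
      abs_of_nonneg (by positivity : (0 : ℝ) ≤ (I : ℝ)⁻¹), inv_mul_le_iff₀ (by exact_mod_cast hI)]
    refine (Finset.abs_sum_le_sum_abs _ _).trans
      ((Finset.sum_le_card_nsmul _ _ (W ^ 2 * Q / √n) fun i hi => ?_).trans (by simp))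
    rw [qform, ← mul_sub, ← Finset.sum_sub_distrib, abs_mul,
      abs_of_nonneg (by positivity : (0 : ℝ) ≤ ((F.card : ℝ) * F'.card)⁻¹),
      inv_mul_le_iff₀ (by rw [hF, hF']; positivity)]
    simp only [← Finset.sum_sub_distrib]
    refine (Finset.abs_sum_le_sum_abs _ _).trans ((Finset.sum_le_card_nsmul _ _
      ((F'.card : ℝ) * (W ^ 2 * Q / √n)) fun a _ => (Finset.abs_sum_le_sum_abs _ _).trans
      ((Finset.sum_le_card_nsmul _ _ (W ^ 2 * Q / √n) fun b _ => ?_).trans (by simp))).trans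
        (by rw [nsmul_eq_mul, mul_assoc]))
    rw [← mul_sub, abs_mul, abs_mul]
    have he := esymm_near_pow (fun k => (τ (y k a * y k b)).re) P hPne
      (fun k => h.abs_cov_le k a b) (2 ^ (i + 1))
    have hq : ((2 ^ (i + 1) : ℕ) : ℝ) ^ 2 / n ≤ Q / √n := by
      have h1 : ((2 ^ (i + 1) : ℕ) : ℝ) ^ 2 ≤ Q := by
        simp only [Q]
        push_cast
        gcongr
        · norm_num
        · exact Finset.mem_range.1 hi
      calc ((2 ^ (i + 1) : ℕ) : ℝ) ^ 2 / n ≤ Q / n := by gcongr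
        _ ≤ Q / √n := div_le_div_of_nonneg_left (by positivity) (by linarith)
            (Real.sqrt_le_iff.2 ⟨by linarith, by nlinarith⟩)
    calc |w i F a| * |w i F' b| * _ ≤ W * W * (Q / √n) :=
          mul_le_mul (mul_le_mul (hw i F a) (hw i F' b) (abs_nonneg _) hW)
            (le_trans he hq) (abs_nonneg _) (mul_nonneg hW hW)
      _ = W ^ 2 * Q / √n := by ring
  have hKδ : K / √n ≤ δ := by
    have : (K / δ) ^ 2 ≤ n := hn₀.trans (by rw [hn, hP]; exact_mod_cast le_max_right _ _)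
    have h1 : K / δ ≤ √n := Real.le_sqrt_of_sq_le this
    rw [div_le_iff₀ (by linarith), mul_comm]
    exact (div_le_iff₀ hδ).1 h1
  set v := pvec p I y P F
  set v' := pvec p I y P F'
  have hv' : l2 τ v' ≤ √(I : ℝ) * W + E := by
    calc l2 τ v' = l2 τ (u F' + (v' - u F')) := by rw [add_sub_cancel]
      _ ≤ √(I : ℝ) * W + E := (h.tr.l2_add_le _ _).trans (add_le_add (hu F' hF')
          ((hdiff F' hF').trans (div_le_self hE hsn)))
  have e : v * v' = (v - u F) * v' + u F * (v' - u F') + u F * u F' := by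
    simp only [sub_mul, mul_sub]; abel
  rw [e, map_add, map_add, Complex.add_re, Complex.add_re, add_sub_assoc]
  refine (abs_add_three _ _ _).trans (le_trans ?_ hKδ)
  calc _ ≤ E / √n * (√(I : ℝ) * W + E) + √(I : ℝ) * W * (E / √n) + W ^ 2 * Q / √n :=
        add_le_add (add_le_add ((h.tr.abs_re_mul_le _ _).trans
          (mul_le_mul (hdiff F hF) hv' (l2_nonneg τ _) (by positivity)))
          ((h.tr.abs_re_mul_le _ _).trans
            (mul_le_mul (hu F hF) (hdiff F' hF') (l2_nonneg τ _) (by positivity)))) huu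
    _ = K / √n := by simp only [K]; ring

end

end VAgent.P095.Gamma
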