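import Mathlib
import Vale.Agent.P095.Gamma.ScalarDefs

/-!
# P095: the multiscale estimate for the scalar quadratic form

At all but boundedly many scales `q = 2 ^ (i + 1)` the kernel `|T| ^ q` is close to the kernel of an
equivalence relation, for which the quadratic form is computed exactly.
-/

open Finset
open scoped symmDiff

namespace VAgent.P095.Gamma

noncomputable section

universe u

variable {β : Type*} [DecidableEq β]

omit [DecidableEq β] in
theorem deg_mem {Φ : β → β → ℝ} (h0 : ∀ x y, 0 ≤ Φ x y) (h1 : ∀ x y, Φ x y ≤ 1) (F : Finset β)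
    (x : β) : deg Φ F x ∈ Set.Icc (0 : ℝ) 1 := by
  refine ⟨mul_nonneg (by positivity) (Finset.sum_nonneg fun y _ => h0 x y), ?_⟩
  rcases F.eq_empty_or_nonempty with rfl | hF
  · simp [deg]
  · have hc : (0 : ℝ) < F.card := by exact_mod_cast hF.card_pos
    rw [deg, inv_mul_le_iff₀ hc, mul_one]
    simpa using Finset.sum_le_card_nsmul F (fun y => Φ x y) 1 fun y _ => h1 x y

omit [DecidableEq β] in
theorem avg_abs_le {F F' : Finset β} {g : β → β → ℝ} {c : ℝ} (hc : 0 ≤ c)
    (h : ∀ x ∈ F, ∀ y ∈ F', |g x y| ≤ c) :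
    |((F.card : ℝ) * F'.card)⁻¹ * ∑ x ∈ F, ∑ y ∈ F', g x y| ≤ c := by
  rw [abs_mul, abs_of_nonneg (by positivity : (0 : ℝ) ≤ ((F.card : ℝ) * F'.card)⁻¹)]
  rcases eq_or_ne ((F.card : ℝ) * F'.card) 0 with h0 | h0
  · simp [h0, hc]
  · rw [inv_mul_le_iff₀ (lt_of_le_of_ne (by positivity) (Ne.symm h0))]
    calc |∑ x ∈ F, ∑ y ∈ F', g x y| ≤ ∑ x ∈ F, ∑ y ∈ F', |g x y| :=
          (Finset.abs_sum_le_sum_abs _ _).trans
            (Finset.sum_le_sum fun x _ => Finset.abs_sum_le_sum_abs _ _)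
      _ ≤ ∑ x ∈ F, ∑ y ∈ F', c := Finset.sum_le_sum fun x hx => Finset.sum_le_sum fun y hy => h x hx y hy
      _ = (F.card : ℝ) * F'.card * c := by simp [mul_assoc]

omit [DecidableEq β] in
theorem qform_bound (p : Polynomial ℝ) {P : ℝ} (hP : ∀ t ∈ Set.Icc (0 : ℝ) 1, |p.eval t| ≤ P)
    {Φ : β → β → ℝ} (h0 : ∀ x y, 0 ≤ Φ x y) (h1 : ∀ x y, Φ x y ≤ 1) (F F' : Finset β) :
    |qform p Φ F F'| ≤ P ^ 2 := by
  have hP0 : 0 ≤ P := (abs_nonneg _).trans (hP 0 (by simp))
  refine avg_abs_le (sq_nonneg P) fun x _ y _ => ?_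
  calc |p.eval (deg Φ F x) * p.eval (deg Φ F' y) * Φ x y| ≤ P * P * 1 := by
        rw [abs_mul, abs_mul]
        exact mul_le_mul (mul_le_mul (hP _ (deg_mem h0 h1 F x)) (hP _ (deg_mem h0 h1 F' y))
          (abs_nonneg _) hP0) (abs_le.2 ⟨by linarith [h0 x y], h1 x y⟩) (abs_nonneg _)
          (mul_nonneg hP0 hP0)
    _ = P ^ 2 := by ring

omit [DecidableEq β] in
theorem qform_near (p : Polynomial ℝ) {P w η : ℝ} (hP : ∀ t ∈ Set.Icc (0 : ℝ) 1, |p.eval t| ≤ P)
    (hw : ∀ s ∈ Set.Icc (0 : ℝ) 1, ∀ t ∈ Set.Icc (0 : ℝ) 1, |s - t| ≤ η → |p.eval s - p.eval t| ≤ w)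
    {Φ Ψ : β → β → ℝ} (h0 : ∀ x y, 0 ≤ Φ x y) (h1 : ∀ x y, Φ x y ≤ 1)
    (g0 : ∀ x y, 0 ≤ Ψ x y) (g1 : ∀ x y, Ψ x y ≤ 1) (hη : 0 ≤ η)
    (hd : ∀ x y, |Φ x y - Ψ x y| ≤ η) (F F' : Finset β) :
    |qform p Φ F F' - qform p Ψ F F'| ≤ 2 * P * w + P ^ 2 * η := by
  have hP0 : 0 ≤ P := (abs_nonneg _).trans (hP 0 (by simp))
  have hw0 : 0 ≤ w := (abs_nonneg _).trans (hw 0 (by simp) 0 (by simp) (by simpa using hη))
  have hdeg : ∀ (A : Finset β) (x : β),
      |p.eval (deg Φ A x) - p.eval (deg Ψ A x)| ≤ w := fun A x =>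
    hw _ (deg_mem h0 h1 A x) _ (deg_mem g0 g1 A x) (by
      rw [deg, deg, ← mul_sub, ← Finset.sum_sub_distrib]
      rcases A.eq_empty_or_nonempty with rfl | hA
      · simpa using hη
      · have hc : (0 : ℝ) < A.card := by exact_mod_cast hA.card_pos
        rw [abs_mul, abs_of_pos (inv_pos.2 hc), inv_mul_le_iff₀ hc]
        refine (Finset.abs_sum_le_sum_abs _ _).trans ?_
        simpa using Finset.sum_le_card_nsmul A (fun y => |Φ x y - Ψ x y|) η fun y _ => hd x y)
  rw [qform, qform, ← mul_sub, ← Finset.sum_sub_distrib]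
  simp only [← Finset.sum_sub_distrib]
  refine avg_abs_le (by positivity) fun x _ y _ => ?_
  set a := p.eval (deg Φ F x)
  set a' := p.eval (deg Ψ F x)
  set b := p.eval (deg Φ F' y)
  set b' := p.eval (deg Ψ F' y)
  have e : a * b * Φ x y - a' * b' * Ψ x y =
      (a - a') * b * Φ x y + a' * (b - b') * Φ x y + a' * b' * (Φ x y - Ψ x y) := by ring
  have hb := hP _ (deg_mem h0 h1 F' y)
  have ha' := hP _ (deg_mem g0 g1 F x)
  have hb' := hP _ (deg_mem g0 g1 F' y)
  have hΦ : |Φ x y| ≤ 1 := abs_le.2 ⟨by linarith [h0 x y], h1 x y⟩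
  rw [e]
  refine (abs_add_three _ _ _).trans ?_
  rw [abs_mul, abs_mul, abs_mul, abs_mul, abs_mul, abs_mul]
  calc |a - a'| * |b| * |Φ x y| + |a'| * |b - b'| * |Φ x y| + |a'| * |b'| * |Φ x y - Ψ x y|
      ≤ w * P * 1 + P * w * 1 + P * P * η := by
        gcongr
        exacts [hdeg F x, hdeg F' y, hd x y]
    _ = 2 * P * w + P ^ 2 * η := by ring

/-- The exact computation for the kernel of an equivalence relation. -/
theorem qform_equiv (p : Polynomial ℝ) {N : ℕ}
    (hp : ∀ j : ℕ, 1 ≤ j → j ≤ N → p.eval ((j : ℝ) / N) = Real.sqrt ((N : ℝ) / j))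
    (r : β → β → Prop) [DecidableRel r] (hr : Equivalence r) {F F' : Finset β}
    (hF : F.card = N) (hF' : F'.card = N) (hN : 1 ≤ N) :
    qform p (fun x y => if r x y then (1 : ℝ) else 0) F F = 1 ∧
      ((F ∩ F').card : ℝ) / N ≤ qform p (fun x y => if r x y then (1 : ℝ) else 0) F F' := by
  have hN0 : (0 : ℝ) < N := by exact_mod_cast hN
  let k : Finset β → β → ℕ := fun A x => (A.filter fun y => r x y).card
  have hk : ∀ A x y, r x y → k A x = k A y := fun A x y h => by
    show (A.filter _).card = (A.filter _).card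
    congr 1
    exact Finset.filter_congr fun z _ => ⟨fun h' => hr.trans (hr.symm h) h', fun h' => hr.trans h h'⟩
  have hkpos : ∀ A : Finset β, ∀ x ∈ A, 1 ≤ k A x := fun A x hx =>
    Finset.card_pos.2 ⟨x, Finset.mem_filter.2 ⟨hx, hr.refl x⟩⟩
  have hw : ∀ A : Finset β, A.card = N → ∀ x ∈ A,
      p.eval (deg (fun x y => if r x y then (1 : ℝ) else 0) A x) =
        Real.sqrt ((N : ℝ) / k A x) := by
    intro A hA x hx
    rw [← hp (k A x) (hkpos A x hx) (hA ▸ Finset.card_filter_le _ _)]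
    simp [deg, hA, k, Finset.sum_boole, inv_mul_eq_div]
  have hrow : ∀ A : Finset β, A.card = N → ∀ x ∈ F,
      ∑ y ∈ A, p.eval (deg (fun x y => if r x y then (1 : ℝ) else 0) F x) *
        p.eval (deg (fun x y => if r x y then (1 : ℝ) else 0) A y) * (if r x y then (1 : ℝ) else 0)
        = N * Real.sqrt ((k A x : ℝ) / k F x) := by
    intro A hA x hx
    have hkF : (0 : ℝ) < k F x := by exact_mod_cast hkpos F x hx
    calc _ = ∑ y ∈ A.filter (fun y => r x y),
          Real.sqrt ((N : ℝ) / k F x) * Real.sqrt ((N : ℝ) / k A x) := by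
          rw [Finset.sum_filter]
          refine Finset.sum_congr rfl fun y hy => ?_
          split
          · rename_i h
            rw [hw F hF x hx, hw A hA y hy, hk A x y h, mul_one]
          · rw [mul_zero]
      _ = (k A x : ℝ) * (Real.sqrt ((N : ℝ) / k F x) * Real.sqrt ((N : ℝ) / k A x)) := by
          rw [Finset.sum_const, nsmul_eq_mul]
      _ = _ := by
          rcases Nat.eq_zero_or_pos (k A x) with h | h
          · simp [h]
          · have hkA : (0 : ℝ) < k A x := by exact_mod_cast h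
            rw [Real.sqrt_div hN0.le, Real.sqrt_div hN0.le, Real.sqrt_div hkA.le]
            field_simp
            rw [Real.sq_sqrt hN0.le, Real.sq_sqrt hkA.le]
  refine ⟨?_, ?_⟩
  · rw [qform, Finset.sum_congr rfl (hrow F hF)]
    have : ∀ x ∈ F, (N : ℝ) * Real.sqrt ((k F x : ℝ) / k F x) = N := fun x hx => by
      rw [div_self (by exact_mod_cast (Nat.one_le_iff_ne_zero.1 (hkpos F x hx))), Real.sqrt_one,
        mul_one]
    rw [Finset.sum_congr rfl this, Finset.sum_const, hF, nsmul_eq_mul]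
    field_simp
  · rw [qform, Finset.sum_congr rfl (hrow F' hF'), ← Finset.mul_sum, hF, hF']
    have h1 : ((F ∩ F').card : ℝ) ≤ ∑ x ∈ F, Real.sqrt ((k F' x : ℝ) / k F x) :=
      calc ((F ∩ F').card : ℝ)
          = ∑ z ∈ F ∩ F', ∑ x ∈ F, (if r x z then (1 : ℝ) else 0) / k F x := by
            rw [Finset.cast_card]
            refine Finset.sum_congr rfl fun z hz => ?_
            have hzF := (Finset.mem_inter.1 hz).1
            have hkz : (k F z : ℝ) ≠ 0 := by
              exact_mod_cast Nat.one_le_iff_ne_zero.1 (hkpos F z hzF)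
            calc (1 : ℝ) = ∑ x ∈ F.filter (fun x => r z x), 1 / (k F z : ℝ) := by
                  rw [Finset.sum_const, nsmul_eq_mul]
                  exact (mul_one_div_cancel hkz).symm
              _ = _ := by
                  rw [Finset.sum_filter]
                  refine Finset.sum_congr rfl fun x _ => ?_
                  by_cases h : r z x
                  · rw [if_pos h, if_pos (hr.symm h), hk F z x h]
                  · rw [if_neg h, if_neg fun h' => h (hr.symm h'), zero_div]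
        _ = ∑ x ∈ F, (k (F ∩ F') x : ℝ) / k F x := by
            rw [Finset.sum_comm]
            simp [← Finset.sum_div, k, Finset.sum_boole]
        _ ≤ _ := by
            refine Finset.sum_le_sum fun x hx => Real.le_sqrt_of_sq_le ?_
            have hkF : (0 : ℝ) < k F x := by exact_mod_cast hkpos F x hx
            have i1 : (k (F ∩ F') x : ℝ) ≤ k F x := by
              exact_mod_cast Finset.card_le_card
                (Finset.filter_subset_filter _ Finset.inter_subset_left)
            have i2 : (k (F ∩ F') x : ℝ) ≤ k F' x := by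
              exact_mod_cast Finset.card_le_card
                (Finset.filter_subset_filter _ Finset.inter_subset_right)
            rw [div_pow, div_le_div_iff₀ (by positivity) hkF]
            nlinarith [mul_le_mul i2 i1 (Nat.cast_nonneg _) (Nat.cast_nonneg _)]
    calc ((F ∩ F').card : ℝ) / N = ((N : ℝ) * N)⁻¹ * (N * (F ∩ F').card) := by field_simp
      _ ≤ _ := by gcongr

theorem pow_mul_one_add_le {a : ℝ} (h0 : 0 ≤ a) (h1 : a ≤ 1) :
    ∀ q : ℕ, a ^ q * (1 + q * (1 - a)) ≤ 1
  | 0 => by simp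
  | q + 1 => by
    have ih := pow_mul_one_add_le h0 h1 q
    calc a ^ (q + 1) * (1 + ((q + 1 : ℕ) : ℝ) * (1 - a))
        = a ^ q * (a * (1 + q * (1 - a)) + a * (1 - a)) := by push_cast; ring
      _ ≤ a ^ q * (1 + q * (1 - a)) := by
          have : (0 : ℝ) ≤ q * (1 - a) := mul_nonneg (Nat.cast_nonneg _) (by linarith)
          refine mul_le_mul_of_nonneg_left ?_ (by positivity)
          nlinarith [mul_nonneg this (by linarith : (0 : ℝ) ≤ 1 - a), sq_nonneg (1 - a)]
      _ ≤ 1 := ih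

omit [DecidableEq β] in
/-- At an unambiguous scale the relation `|T| ^ q ≈ 1` is an equivalence relation. -/
theorem good_equivalence {T : β → β → ℝ} (hT : GoodKernel T) {q : ℕ} {η : ℝ}
    (hη : 0 < η) (hη1 : η ≤ 1 / 10)
    (hgood : ∀ x y, |T x y| ^ q ≤ η ∨ 1 - η ≤ |T x y| ^ q) :
    Equivalence fun x y => 1 - η ≤ |T x y| ^ q := by
  refine ⟨fun x => by simp [hT.diag, hη.le], fun {x y} h => by rwa [hT.symm y x], ?_⟩
  intro x y z hxy hyz
  refine (hgood x z).resolve_left fun hxz => ?_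
  have hb : ∀ u v, 1 - η ≤ |T u v| ^ q → (q : ℝ) * (1 - |T u v|) ≤ 1 / 9 := by
    intro u v h
    have h2 := pow_mul_one_add_le (abs_nonneg (T u v)) (hT.abs_le u v) q
    have h3 : 0 ≤ (q : ℝ) * (1 - |T u v|) :=
      mul_nonneg (Nat.cast_nonneg _) (by linarith [hT.abs_le u v])
    nlinarith [mul_le_mul_of_nonneg_right h (by linarith : (0 : ℝ) ≤ 1 + q * (1 - |T u v|))]
  have h4 := one_add_mul_le_pow (a := |T x z| - 1) (by linarith [abs_nonneg (T x z)]) q
  rw [add_sub_cancel] at h4
  nlinarith [hb x y hxy, hb y z hyz,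
    mul_le_mul_of_nonneg_left (hT.triangle x y z) (Nat.cast_nonneg q : (0 : ℝ) ≤ q)]

/-- A pair is ambiguous at boundedly many scales only. -/
theorem card_bad_le {η : ℝ} (hη : 0 < η) (_hη1 : η ≤ 1) {L : ℕ}
    (hL : (1 - η) ^ 2 ^ L ≤ η) {a : ℝ} (ha : 0 ≤ a) (I : ℕ) :
    ((range I).filter fun i => η < a ^ 2 ^ (i + 1) ∧ a ^ 2 ^ (i + 1) < 1 - η).card ≤ L := by
  rcases ((range I).filter fun i => η < a ^ 2 ^ (i + 1) ∧ a ^ 2 ^ (i + 1) < 1 - η).eq_empty_or_nonempty
    with h | h
  · simp [h]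
  · set i₀ := Finset.min' _ h with hi₀
    refine (Finset.card_le_card (t := Finset.Ico i₀ (i₀ + L)) fun j hj => ?_).trans (by simp)
    rw [Finset.mem_Ico]
    refine ⟨Finset.min'_le _ _ hj, ?_⟩
    by_contra! hlt
    obtain ⟨_, hlo, hhi⟩ := Finset.mem_filter.1 (Finset.min'_mem _ h)
    obtain ⟨_, hlo', _⟩ := Finset.mem_filter.1 hj
    rw [← hi₀] at hlo hhi
    obtain ⟨d, rfl⟩ := Nat.exists_eq_add_of_le hlt
    refine absurd hlo' (not_lt.2 ?_)
    calc a ^ 2 ^ (i₀ + L + d + 1) = (a ^ 2 ^ (i₀ + 1)) ^ (2 ^ (L + d)) := by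
          rw [← pow_mul, ← pow_add]; congr 2; omega
      _ ≤ (1 - η) ^ (2 ^ (L + d)) := pow_le_pow_left₀ (by positivity) hhi.le _
      _ ≤ (1 - η) ^ 2 ^ L := pow_le_pow_of_le_one (by linarith) (by linarith)
          (Nat.pow_le_pow_right two_pos (by omega))
      _ ≤ η := hL

/-- The multiscale estimate. -/
theorem exists_scaleForm (N : ℕ) (hN : 1 ≤ N) :
    ∃ p : Polynomial ℝ, ∀ (m : ℕ) (δ : ℝ), 0 < δ → ∃ I : ℕ, 1 ≤ I ∧
      ∀ (β : Type u) [Fintype β] [DecidableEq β], Fintype.card β ≤ m →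
        ∀ T : β → β → ℝ, GoodKernel T → ∀ F F' : Finset β, F.card = N → F'.card = N →
          |scaleForm p I T F F - 1| ≤ δ ∧
          scaleForm p I T F F - 2 * scaleForm p I T F F' + scaleForm p I T F' F' ≤
            ((F ∆ F').card : ℝ) / N + δ := by
  classical
  have hN0 : (0 : ℝ) < N := by exact_mod_cast hN
  have hinj : Set.InjOn (fun j : ℕ => (j : ℝ) / N) (Finset.Icc 1 N : Set ℕ) := by
    intro a _ b _ h
    simpa [div_left_inj' hN0.ne'] using h
  let p : Polynomial ℝ := Lagrange.interpolate (Finset.Icc 1 N) (fun j : ℕ => (j : ℝ) / N)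
    fun j => Real.sqrt ((N : ℝ) / j)
  have hp : ∀ j : ℕ, 1 ≤ j → j ≤ N → p.eval ((j : ℝ) / N) = Real.sqrt ((N : ℝ) / j) :=
    fun j h1 h2 => Lagrange.eval_interpolate_at_node _ hinj (Finset.mem_Icc.2 ⟨h1, h2⟩)
  refine ⟨p, fun m δ hδ => ?_⟩
  obtain ⟨P, hP⟩ : ∃ P, ∀ t ∈ Set.Icc (0 : ℝ) 1, |p.eval t| ≤ P :=
    isCompact_Icc.exists_bound_of_continuousOn (p.continuous.continuousOn)
  have hP0 : 0 ≤ P := (abs_nonneg _).trans (hP 0 (by simp))
  obtain ⟨e, he, hue⟩ := Metric.uniformContinuousOn_iff.1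
    (isCompact_Icc.uniformContinuousOn_of_continuous (p.continuous.continuousOn (s := Set.Icc 0 1)))
    (δ / (32 * (P + 1))) (by positivity)
  let η := min (1 / 10 : ℝ) (min (e / 2) (δ / (16 * (P ^ 2 + 1))))
  have hη : 0 < η := by positivity
  have hη1 : η ≤ 1 / 10 := min_le_left _ _
  obtain ⟨L, hL⟩ : ∃ L : ℕ, (1 - η) ^ 2 ^ L ≤ η := by
    obtain ⟨M, hM⟩ := exists_pow_lt_of_lt_one hη (by linarith : 1 - η < 1)
    exact ⟨M, (pow_le_pow_of_le_one (by linarith) (by linarith) (Nat.lt_two_pow_self).le).trans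
      hM.le⟩
  obtain ⟨I, hI⟩ := exists_nat_ge (max 1 (((m : ℝ) * m * L) * (4 * P ^ 2 + 1) * (2 / δ)))
  have hI1 : (1 : ℝ) ≤ I := (le_max_left _ _).trans hI
  have hI2 : ((m : ℝ) * m * L) * (4 * P ^ 2 + 1) ≤ I * (δ / 2) := by
    have := (le_max_right _ _).trans hI
    calc ((m : ℝ) * m * L) * (4 * P ^ 2 + 1)
        = ((m : ℝ) * m * L) * (4 * P ^ 2 + 1) * (2 / δ) * (δ / 2) := by field_simp
      _ ≤ I * (δ / 2) := by gcongr
  refine ⟨I, by exact_mod_cast hI1, fun β _ _ hβ T hT F F' hF hF' => ?_⟩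
  let good : ℕ → Prop := fun i =>
    ∀ x y, |T x y| ^ 2 ^ (i + 1) ≤ η ∨ 1 - η ≤ |T x y| ^ 2 ^ (i + 1)
  have hbad : ((range I).filter fun i => ¬ good i).card ≤ m * m * L := by
    calc ((range I).filter fun i => ¬ good i).card
        ≤ ((univ : Finset (β × β)).biUnion fun z => (range I).filter fun i =>
            η < |T z.1 z.2| ^ 2 ^ (i + 1) ∧ |T z.1 z.2| ^ 2 ^ (i + 1) < 1 - η).card := by
          refine Finset.card_le_card fun i hi => ?_
          obtain ⟨hi, hg⟩ := Finset.mem_filter.1 hi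
          simp only [good, not_forall, not_or, not_le] at hg
          obtain ⟨x, y, h⟩ := hg
          exact Finset.mem_biUnion.2 ⟨(x, y), mem_univ _, Finset.mem_filter.2 ⟨hi, h⟩⟩
      _ ≤ (univ : Finset (β × β)).card * L := Finset.card_biUnion_le_card_mul _ _ _ fun z _ =>
          card_bad_le hη (by linarith) hL (abs_nonneg _) I
      _ ≤ m * m * L := by
          simp only [Finset.card_univ, Fintype.card_prod]
          gcongr
  let Q : ℕ → Finset β → Finset β → ℝ := fun i A B =>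
    qform p (fun x y => T x y ^ 2 ^ (i + 1)) A B
  have hQb : ∀ i A B, |Q i A B| ≤ P ^ 2 := fun i A B =>
    qform_bound p hP (fun x y => (Even.pow_nonneg ⟨2 ^ i, by ring⟩ _))
      (fun x y => by
        rw [← Even.pow_abs ⟨2 ^ i, by ring⟩]
        exact pow_le_one₀ (abs_nonneg _) (hT.abs_le x y)) A B
  have hscale : ∀ i, (|Q i F F - 1| ≤ (if good i then δ / 2 else 4 * P ^ 2 + 1)) ∧
      Q i F F - 2 * Q i F F' + Q i F' F' ≤
        ((F ∆ F').card : ℝ) / N + (if good i then δ / 2 else 4 * P ^ 2 + 1) := by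
    intro i
    have hΔ : (0 : ℝ) ≤ ((F ∆ F').card : ℝ) / N := by positivity
    by_cases hg : good i
    · rw [if_pos hg]
      have hr := good_equivalence hT hη hη1 hg
      have hev : Even (2 ^ (i + 1)) := ⟨2 ^ i, by ring⟩
      have hnear : ∀ A B, |Q i A B -
          qform p (fun x y => if 1 - η ≤ |T x y| ^ 2 ^ (i + 1) then (1 : ℝ) else 0) A B| ≤
          δ / 8 := by
        intro A B
        refine (qform_near p hP (w := δ / (32 * (P + 1))) (η := η) ?_
          (fun x y => hev.pow_nonneg _)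
          (fun x y => by rw [← hev.pow_abs]; exact pow_le_one₀ (abs_nonneg _) (hT.abs_le x y))
          (fun x y => by split_ifs <;> norm_num) (fun x y => by split_ifs <;> norm_num)
          hη.le ?_ A B).trans ?_
        · intro s hs t ht hst
          refine (hue s hs t ht ?_).le
          rw [Real.dist_eq]
          linarith [min_le_left (e / 2) (δ / (16 * (P ^ 2 + 1))),
            min_le_right (1 / 10 : ℝ) (min (e / 2) (δ / (16 * (P ^ 2 + 1))))]
        · intro x y
          rw [← hev.pow_abs]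
          have h1 : |T x y| ^ 2 ^ (i + 1) ≤ 1 := pow_le_one₀ (abs_nonneg _) (hT.abs_le x y)
          have h0 : 0 ≤ |T x y| ^ 2 ^ (i + 1) := by positivity
          split_ifs with h
          · exact abs_le.2 ⟨by linarith, by linarith⟩
          · exact abs_le.2 ⟨by linarith, by linarith [(hg x y).resolve_right h]⟩
        · have e1 : 2 * P * (δ / (32 * (P + 1))) ≤ δ / 16 := by
            calc 2 * P * (δ / (32 * (P + 1))) ≤ 2 * (P + 1) * (δ / (32 * (P + 1))) := by
                  gcongr; linarith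
              _ = δ / 16 := by field_simp; ring
          have e2 : P ^ 2 * η ≤ δ / 16 := by
            calc P ^ 2 * η ≤ (P ^ 2 + 1) * (δ / (16 * (P ^ 2 + 1))) := by
                  gcongr
                  · linarith
                  · exact (min_le_right _ _).trans (min_le_right _ _)
              _ = δ / 16 := by field_simp
          linarith
      obtain ⟨e11, e12⟩ := qform_equiv p hp _ hr hF hF' hN
      obtain ⟨e22, -⟩ := qform_equiv p hp _ hr hF' hF hN
      have a11 := abs_le.1 (hnear F F)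
      have a12 := abs_le.1 (hnear F F')
      have a22 := abs_le.1 (hnear F' F')
      have hcard : ((F ∆ F').card : ℝ) + 2 * (F ∩ F').card = 2 * N := by
        have h1 := Finset.card_sdiff_add_card_inter F F'
        have h2 := Finset.card_sdiff_add_card_inter F' F
        rw [Finset.inter_comm F' F] at h2
        have h3 : (F ∆ F').card = (F \ F').card + (F' \ F).card := by
          rw [symmDiff_def, Finset.sup_eq_union, Finset.card_union_of_disjoint disjoint_sdiff_sdiff]
        have : (F ∆ F').card + 2 * (F ∩ F').card = 2 * N := by omega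
        exact_mod_cast this
      have hcard' : ((F ∆ F').card : ℝ) / N + 2 * (((F ∩ F').card : ℝ) / N) = 2 := by
        field_simp
        linarith
      refine ⟨abs_le.2 ⟨by linarith, by linarith⟩, ?_⟩
      linarith
    · rw [if_neg hg]
      have a11 := abs_le.1 (hQb i F F)
      have a12 := abs_le.1 (hQb i F F')
      have a22 := abs_le.1 (hQb i F' F')
      exact ⟨abs_le.2 ⟨by nlinarith, by nlinarith⟩, by nlinarith⟩
  have hsum : ∑ i ∈ range I, (if good i then δ / 2 else 4 * P ^ 2 + 1) ≤ I * δ := by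
    rw [Finset.sum_ite, Finset.sum_const, Finset.sum_const, nsmul_eq_mul, nsmul_eq_mul]
    have h1 : (((range I).filter fun i => good i).card : ℝ) ≤ I := by
      exact_mod_cast (Finset.card_filter_le _ _).trans (card_range I).le
    have h2 : (((range I).filter fun i => ¬ good i).card : ℝ) ≤ (m : ℝ) * m * L := by
      exact_mod_cast hbad
    nlinarith
  have hIpos : (0 : ℝ) < I := by linarith
  constructor
  · calc |scaleForm p I T F F - 1| = |(I : ℝ)⁻¹ * ∑ i ∈ range I, (Q i F F - 1)| := by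
          rw [Finset.sum_sub_distrib, Finset.sum_const, card_range, nsmul_eq_mul, mul_one, mul_sub,
            inv_mul_cancel₀ hIpos.ne']
          rfl
      _ ≤ (I : ℝ)⁻¹ * ∑ i ∈ range I, (if good i then δ / 2 else 4 * P ^ 2 + 1) := by
          rw [abs_mul, abs_of_pos (inv_pos.2 hIpos)]
          gcongr
          exact (Finset.abs_sum_le_sum_abs _ _).trans
            (Finset.sum_le_sum fun i _ => (hscale i).1)
      _ ≤ δ := by rw [inv_mul_le_iff₀ hIpos]; exact hsum
  · calc _ = (I : ℝ)⁻¹ * ∑ i ∈ range I, (Q i F F - 2 * Q i F F' + Q i F' F') := by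
          simp only [scaleForm, Q, Finset.sum_add_distrib, Finset.sum_sub_distrib, ← Finset.mul_sum]
          ring
      _ ≤ (I : ℝ)⁻¹ * ∑ i ∈ range I, (((F ∆ F').card : ℝ) / N +
            (if good i then δ / 2 else 4 * P ^ 2 + 1)) := by
          exact mul_le_mul_of_nonneg_left (Finset.sum_le_sum fun i _ => (hscale i).2)
            (by positivity)
      _ ≤ _ := by
          rw [Finset.sum_add_distrib, Finset.sum_const, card_range, nsmul_eq_mul, mul_add,
            inv_mul_cancel_left₀ hIpos.ne']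
          gcongr
          rw [inv_mul_le_iff₀ hIpos]
          exact hsum

end

end VAgent.P095.Gamma
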