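import Mathlib
import Vale.Agent.P101.DimDropDef

/-!
# P095: an element of `Z_{2,3}` with trace zero and square of trace one, by commutators
-/

namespace VAgent.P095.Gamma

open Vale.Agent.P101
open scoped ComplexOrder CStarAlgebra Topology Kronecker

noncomputable section

/-- The path `t ↦ f t • M`. -/
def el (f : C(unitInterval, ℝ)) (M : Matrix (Fin 2 × Fin (2 + 1)) (Fin 2 × Fin (2 + 1)) ℂ) : DDSpace 2 :=
  ⟨fun t => (f t : ℂ) • toC _ M, (Complex.continuous_ofReal.comp f.continuous).smul continuous_const⟩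

theorem el_apply (f : C(unitInterval, ℝ)) (M) (t : unitInterval) :
    el f M t = (f t : ℂ) • toC _ M := rfl

theorem el_mul (f g : C(unitInterval, ℝ)) (M N) : el f M * el g N = el (f * g) (M * N) := by
  ext1 t
  simp only [ContinuousMap.mul_apply, el_apply, smul_mul_smul_comm, Complex.ofReal_mul, map_mul]

theorem el_star (f : C(unitInterval, ℝ)) (M) : star (el f M) = el f (star M) := by
  ext1 t
  simp only [ContinuousMap.star_apply, el_apply, star_smul, map_star, RCLike.star_def,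
    Complex.conj_ofReal]

theorem el_sub (f : C(unitInterval, ℝ)) (M N) : el f M - el f N = el f (M - N) := by
  ext1 t
  simp only [ContinuousMap.sub_apply, el_apply, smul_sub, map_sub]

theorem sub_kron (a a' : Matrix (Fin 2) (Fin 2) ℂ) (b : Matrix (Fin (2 + 1)) (Fin (2 + 1)) ℂ) :
    (a - a') ⊗ₖ b = a ⊗ₖ b - a' ⊗ₖ b := by
  ext i j; simp [sub_mul]

theorem kron_sub (a : Matrix (Fin 2) (Fin 2) ℂ) (b b' : Matrix (Fin (2 + 1)) (Fin (2 + 1)) ℂ) :
    a ⊗ₖ (b - b') = a ⊗ₖ b - a ⊗ₖ b' := by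
  ext i j; simp [mul_sub]

theorem el_mem {f : C(unitInterval, ℝ)} {M : Matrix (Fin 2 × Fin (2 + 1)) (Fin 2 × Fin (2 + 1)) ℂ}
    (h0 : f 0 = 0 ∨ ∃ a : Matrix (Fin 2) (Fin 2) ℂ, M = a ⊗ₖ (1 : Matrix (Fin (2 + 1)) (Fin (2 + 1)) ℂ))
    (h1 : f 1 = 0 ∨ ∃ b : Matrix (Fin (2 + 1)) (Fin (2 + 1)) ℂ, M = (1 : Matrix (Fin 2) (Fin 2) ℂ) ⊗ₖ b) :
    el f M ∈ DimDrop 2 := by
  refine ⟨?_, ?_⟩
  · rcases h0 with h | ⟨a, rfl⟩
    · exact ⟨0, by rw [el_apply, h, Matrix.zero_kronecker, map_zero]; simp⟩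
    · exact ⟨(f 0 : ℂ) • a, by rw [el_apply, Matrix.smul_kronecker, map_smul]⟩
  · rcases h1 with h | ⟨b, rfl⟩
    · exact ⟨0, by rw [el_apply, h, Matrix.kronecker_zero, map_zero]; simp⟩
    · exact ⟨(f 1 : ℂ) • b, by rw [el_apply, Matrix.kronecker_smul, map_smul]⟩

/-- `√(1 - t)`. -/
def cf : C(unitInterval, ℝ) := ⟨fun t => √(1 - (t : ℝ)), by fun_prop⟩

/-- `√t`. -/
def sf : C(unitInterval, ℝ) := ⟨fun t => √(t : ℝ), by fun_prop⟩

/-- `√(3/2)`. -/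
def rr : ℝ := √(3 / 2)

theorem rr_sq : rr * rr = 3 / 2 := Real.mul_self_sqrt (by norm_num)

theorem cf_sq (t : unitInterval) : cf t * cf t = 1 - (t : ℝ) :=
  Real.mul_self_sqrt (by linarith [t.2.2])

theorem sf_sq (t : unitInterval) : sf t * sf t = (t : ℝ) := Real.mul_self_sqrt t.2.1

/-- Elementary matrices. -/
abbrev e2 (i j : Fin 2) : Matrix (Fin 2) (Fin 2) ℂ := Matrix.single i j 1

/-- Elementary matrices. -/
abbrev e3 (i j : Fin (2 + 1)) : Matrix (Fin (2 + 1)) (Fin (2 + 1)) ℂ := Matrix.single i j 1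

/-- `diag(1,-1)`. -/
def mA : Matrix (Fin 2) (Fin 2) ℂ := Matrix.diagonal ![1, -1]

/-- `diag(1,0,-1)`. -/
def mB : Matrix (Fin (2 + 1)) (Fin (2 + 1)) ℂ := Matrix.diagonal ![1, 0, -1]

theorem mA_comm : e2 0 1 * e2 1 0 - e2 1 0 * e2 0 1 = mA := by
  ext i j; fin_cases i <;> fin_cases j <;> simp [mA, Matrix.mul_apply]

theorem mA_sq : mA * mA = 1 := by
  ext i j; fin_cases i <;> fin_cases j <;> simp [mA, Matrix.mul_apply]

theorem mB_comm : e3 0 2 * e3 2 0 - e3 2 0 * e3 0 2 = mB := by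
  ext i j; fin_cases i <;> fin_cases j <;> simp [mB, Matrix.mul_apply, Fin.sum_univ_three]

theorem mB_sq : (3 / 2 : ℂ) • (mB * mB) = 1 + (1 / 2 : ℂ) • ((e3 0 1 * e3 1 0 - e3 1 0 * e3 0 1)
    + (e3 2 1 * e3 1 2 - e3 1 2 * e3 2 1)) := by
  ext i j; fin_cases i <;> fin_cases j <;>
    simp [mB, Matrix.mul_apply, Fin.sum_univ_three] <;> norm_num

theorem mA_star : star mA = mA := by
  ext i j; fin_cases i <;> fin_cases j <;> simp [mA, Matrix.star_eq_conjTranspose]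

theorem mB_star : star mB = mB := by
  ext i j; fin_cases i <;> fin_cases j <;> simp [mB, Matrix.star_eq_conjTranspose]

/-- The element. -/
def xDD : DDSpace 2 :=
  el cf (mA ⊗ₖ (1 : Matrix (Fin (2 + 1)) (Fin (2 + 1)) ℂ)) +
    el (ContinuousMap.const _ rr * sf) ((1 : Matrix (Fin 2) (Fin 2) ℂ) ⊗ₖ mB)

theorem cf_one : cf 1 = 0 := by simp [cf]
theorem sf_zero : sf 0 = 0 := by simp [sf]

theorem xDD_mem : xDD ∈ DimDrop 2 :=
  add_mem (el_mem (Or.inr ⟨_, rfl⟩) (Or.inl cf_one))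
    (el_mem (Or.inl (by simp [sf_zero])) (Or.inr ⟨_, rfl⟩))

theorem xDD_apply (t : unitInterval) : xDD t = toC _
    ((cf t : ℂ) • (mA ⊗ₖ (1 : Matrix (Fin (2 + 1)) (Fin (2 + 1)) ℂ)) +
      ((rr * sf t : ℝ) : ℂ) • ((1 : Matrix (Fin 2) (Fin 2) ℂ) ⊗ₖ mB)) := by
  rw [map_add, map_smul, map_smul]; rfl

theorem xDD_sa : IsSelfAdjoint xDD := by
  refine ContinuousMap.ext fun t => ?_
  show star (xDD t) = xDD t
  rw [xDD_apply, ← map_star, star_add, star_smul, star_smul]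
  simp only [Matrix.star_eq_conjTranspose, Matrix.conjTranspose_kronecker,
    Matrix.conjTranspose_one, show mA.conjTranspose = mA from mA_star,
    show mB.conjTranspose = mB from mB_star, RCLike.star_def, Complex.conj_ofReal]

/-- There is a self-adjoint element of `Z_{2,3}` such that it and its square minus one are sums of
commutators in `Z_{2,3}`. -/
theorem exists_cert : ∃ (x : DimDrop 2) (u v : Fin 5 → DimDrop 2), IsSelfAdjoint x ∧
    x + (v 0 * u 0 + v 1 * u 1) = u 0 * v 0 + u 1 * v 1 ∧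
    x * x + (v 2 * u 2 + v 3 * u 3 + v 4 * u 4) = 1 + (u 2 * v 2 + u 3 * v 3 + u 4 * v 4) := by
  let r : C(unitInterval, ℝ) := ContinuousMap.const _ rr
  let g1 : C(unitInterval, ℝ) := ⟨fun t => √(cf t), Real.continuous_sqrt.comp cf.continuous⟩
  let g2 : C(unitInterval, ℝ) := ⟨fun t => √(sf t), Real.continuous_sqrt.comp sf.continuous⟩
  let g3 : C(unitInterval, ℝ) :=
    ⟨fun t => √(2 * rr * cf t * sf t), Real.continuous_sqrt.comp (by fun_prop)⟩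
  let one2 : Matrix (Fin 2) (Fin 2) ℂ := 1
  let one3 : Matrix (Fin (2 + 1)) (Fin (2 + 1)) ℂ := 1
  have g1_1 : g1 1 = 0 := by simp [g1, cf_one]
  have g2_0 : g2 0 = 0 := by simp [g2, sf_zero]
  have g3_0 : g3 0 = 0 := by simp [g3, sf_zero]
  have g3_1 : g3 1 = 0 := by simp [g3, cf_one]
  have hs0 : (ContinuousMap.const _ (1 / 2 : ℝ) * sf : C(unitInterval, ℝ)) 0 = 0 := by
    simp [sf_zero]
  let U : Fin 5 → DimDrop 2 := ![
    ⟨el g1 (e2 0 1 ⊗ₖ one3), el_mem (Or.inr ⟨_, rfl⟩) (Or.inl g1_1)⟩,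
    ⟨el (r * g2) (one2 ⊗ₖ e3 0 2), el_mem (Or.inl (by simp [g2_0])) (Or.inr ⟨_, rfl⟩)⟩,
    ⟨el g3 (e2 0 1 ⊗ₖ mB), el_mem (Or.inl g3_0) (Or.inl g3_1)⟩,
    ⟨el (ContinuousMap.const _ (1 / 2 : ℝ) * sf) (one2 ⊗ₖ e3 0 1),
      el_mem (Or.inl hs0) (Or.inr ⟨_, rfl⟩)⟩,
    ⟨el (ContinuousMap.const _ (1 / 2 : ℝ) * sf) (one2 ⊗ₖ e3 2 1),
      el_mem (Or.inl hs0) (Or.inr ⟨_, rfl⟩)⟩]
  let V : Fin 5 → DimDrop 2 := ![
    ⟨el g1 (e2 1 0 ⊗ₖ one3), el_mem (Or.inr ⟨_, rfl⟩) (Or.inl g1_1)⟩,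
    ⟨el g2 (one2 ⊗ₖ e3 2 0), el_mem (Or.inl g2_0) (Or.inr ⟨_, rfl⟩)⟩,
    ⟨el g3 (e2 1 0 ⊗ₖ one3), el_mem (Or.inl g3_0) (Or.inl g3_1)⟩,
    ⟨el sf (one2 ⊗ₖ e3 1 0), el_mem (Or.inl sf_zero) (Or.inr ⟨_, rfl⟩)⟩,
    ⟨el sf (one2 ⊗ₖ e3 1 2), el_mem (Or.inl sf_zero) (Or.inr ⟨_, rfl⟩)⟩]
  refine ⟨⟨xDD, xDD_mem⟩, U, V, Subtype.ext xDD_sa, Subtype.ext ?_, Subtype.ext ?_⟩
  · show xDD + _ = _
    simp only [U, V, xDD, AddMemClass.coe_add, MulMemClass.coe_mul, Matrix.cons_val_zero,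
      Matrix.cons_val_one, el_mul, ← Matrix.mul_kronecker_mul, one2, one3, one_mul]
    ext1 t
    have h1 : g1 t * g1 t = cf t := Real.mul_self_sqrt (Real.sqrt_nonneg _)
    have h2 : g2 t * g2 t = sf t := Real.mul_self_sqrt (Real.sqrt_nonneg _)
    simp only [ContinuousMap.add_apply, el_apply, ContinuousMap.mul_apply, r,
      ContinuousMap.const_apply]
    rw [show g2 t * (rr * g2 t) = rr * sf t by rw [← h2]; ring,
      show rr * g2 t * g2 t = rr * sf t by rw [← h2]; ring, h1]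
    simp only [← map_smul (toC (Fin 2 × Fin (2 + 1))), ← map_add (toC (Fin 2 × Fin (2 + 1)))]
    congr 1
    rw [← mA_comm, ← mB_comm, sub_kron, kron_sub]
    simp only [smul_sub]
    abel
  · show xDD * xDD + _ = 1 + _
    simp only [U, V, AddMemClass.coe_add, MulMemClass.coe_mul, Matrix.cons_val,
      el_mul, ← Matrix.mul_kronecker_mul, one2, one3, one_mul, mul_one]
    ext1 t
    have h3 : g3 t * g3 t = 2 * rr * cf t * sf t := Real.mul_self_sqrt (by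
      have := Real.sqrt_nonneg (3 / 2 : ℝ)
      have : 0 ≤ cf t := Real.sqrt_nonneg _
      have : 0 ≤ sf t := Real.sqrt_nonneg _
      simp only [rr]; positivity)
    simp only [ContinuousMap.add_apply, ContinuousMap.one_apply, el_apply, ContinuousMap.mul_apply,
      ContinuousMap.const_apply, xDD_apply]
    rw [h3]
    simp only [← map_one (toC (Fin 2 × Fin (2 + 1))), ← map_smul (toC (Fin 2 × Fin (2 + 1))),
      ← map_mul (toC (Fin 2 × Fin (2 + 1))), ← map_add (toC (Fin 2 × Fin (2 + 1)))]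
    congr 1
    have h1 : (cf t : ℂ) * (cf t : ℂ) = 1 - (sf t : ℂ) * (sf t : ℂ) := by
      rw [← Complex.ofReal_mul, ← Complex.ofReal_mul, cf_sq, sf_sq]; push_cast; ring
    have hB : ((rr * sf t : ℝ) : ℂ) * ((rr * sf t : ℝ) : ℂ) =
        (sf t : ℂ) * (sf t : ℂ) * (3 / 2) := by
      rw [← Complex.ofReal_mul, show rr * sf t * (rr * sf t) = (rr * rr) * (sf t * sf t) by ring,
        rr_sq]
      push_cast; ring
    simp only [add_mul, mul_add, smul_mul_smul_comm, ← Matrix.mul_kronecker_mul, mA_sq, one_mul,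
      mul_one, h1, hB]
    have hk : (3 / 2 : ℂ) • ((1 : Matrix (Fin 2) (Fin 2) ℂ) ⊗ₖ (mB * mB)) =
        (1 : Matrix (Fin 2) (Fin 2) ℂ) ⊗ₖ ((3 / 2 : ℂ) • (mB * mB)) :=
      (Matrix.kronecker_smul _ _ _).symm
    rw [mul_smul _ (3 / 2 : ℂ) _, hk, mB_sq, ← mA_comm]
    simp only [Matrix.kronecker_add, Matrix.kronecker_smul, sub_kron, kron_sub,
      Matrix.one_kronecker_one, smul_add, smul_sub, smul_smul]
    push_cast
    module

end

end VAgent.P095.Gamma
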