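import Mathlib
import Vale.Agent.P101.Basic
import Vale.Agent.P095.Gamma.PoolDefs

/-!
# P095: the martingale over fresh pools

The sequence `h ↦ h + η v (1 - h²)`, with `v` built from a fresh pool at each step.
-/

namespace VAgent.P095.Gamma

open scoped ComplexOrder

noncomputable section

variable {C : Type*} [CStarAlgebra C] {β : Type*}

theorem norm_step_le {h a : C} (hh : IsSelfAdjoint h) (ha : IsSelfAdjoint a) (hc : Commute h a)
    (h1 : ‖h‖ ≤ 1) (a1 : ‖a‖ ≤ 1 / 2) :
    ‖h + a * (1 - h * h)‖ ≤ 1 ∧ ‖1 - h * h‖ ≤ 1 := by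
  rcases subsingleton_or_nontrivial C with hC | hC
  · constructor <;> simp [Subsingleton.elim _ (0 : C)]
  have hsa : P101.CommSA ({h, a} : Set C) := by
    refine ⟨by simp [hh, ha], ?_⟩
    rintro x (rfl | rfl) y (rfl | rfl)
    exacts [Commute.refl _, hc, hc.symm, Commute.refl _]
  let H : P101.Abel _ hsa := ⟨h, P101.mem_abel hsa (by simp)⟩
  let X : P101.Abel _ hsa := ⟨a, P101.mem_abel hsa (by simp)⟩
  have hH : IsSelfAdjoint H := Subtype.ext hh
  have hX : IsSelfAdjoint X := Subtype.ext ha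
  have key : ∀ z : P101.Abel _ hsa, (∀ χ : WeakDual.characterSpace ℂ (P101.Abel _ hsa), ‖χ z‖ ≤ 1) →
      ‖(z : C)‖ ≤ 1 := by
    intro z hz
    have e := (gelfandTransform_isometry (P101.Abel _ hsa)).norm_map_of_map_zero (map_zero _) z
    show ‖z‖ ≤ 1
    rw [← e]
    exact (ContinuousMap.norm_le _ zero_le_one).2 hz
  have hb : ∀ χ : WeakDual.characterSpace ℂ (P101.Abel _ hsa),
      |(χ H).re| ≤ 1 ∧ |(χ X).re| ≤ 1 / 2 := by
    intro χ
    constructor
    · exact (Complex.abs_re_le_norm _).trans ((AlgHom.norm_apply_le_self χ H).trans h1)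
    · exact (Complex.abs_re_le_norm _).trans ((AlgHom.norm_apply_le_self χ X).trans a1)
  refine ⟨key (H + X * (1 - H * H)) fun χ => ?_, key (1 - H * H) fun χ => ?_⟩
  all_goals
    obtain ⟨b1, b2⟩ := hb χ
    simp only [map_add, map_mul, map_sub, map_one]
    rw [P101.char_re χ hH]
    try rw [P101.char_re χ hX]
    set s := (χ H).re
    try set t := (χ X).re
    simp only [← Complex.ofReal_one, ← Complex.ofReal_mul, ← Complex.ofReal_sub,
      ← Complex.ofReal_add, Complex.norm_real, Real.norm_eq_abs]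
    rw [abs_le] at *
    have h3 : 0 ≤ 1 - s * s := by nlinarith [b1.1, b1.2]
    constructor <;>
      nlinarith [mul_le_mul_of_nonneg_right b2.2 h3, mul_le_mul_of_nonneg_right b2.1 h3,
        sq_nonneg (s - 1), sq_nonneg (s + 1)]

/-- The pool used in step `k`. -/
def pool (n k : ℕ) : Finset ℕ := Finset.Ico (k * n) ((k + 1) * n)

theorem pool_card (n k : ℕ) : (pool n k).card = n := by
  simp [pool, add_mul]

theorem pool_subset (n k : ℕ) : ↑(pool n k) ⊆ Set.Iio ((k + 1) * n) := fun i hi => by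
  simp [pool] at hi; exact hi.2

theorem pool_disjoint (n k : ℕ) : Disjoint (↑(pool n k)) (Set.Iio (k * n)) := by
  rw [Set.disjoint_left]
  intro i hi h'
  simp [pool] at hi h'
  omega

/-- The martingale. -/
def mart (p : Polynomial ℝ) (I n : ℕ) (η : ℝ) (y : ℕ → β → C) (F : Finset β) : ℕ → C
  | 0 => 0
  | k + 1 => mart p I n η y F k +
      η • (pvec p I y (pool n k) F) * (1 - mart p I n η y F k * mart p I n η y F k)

variable {τ : C →ₗ[ℂ] ℂ} {M : ℝ} {y : ℕ → β → C} {alg : Set ℕ → StarSubalgebra ℂ C}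
  {p : Polynomial ℝ} {I n : ℕ} {η δ e : ℝ} {F F' : Finset β}

/-- What is used about the vectors of the pools. -/
structure PoolBounds (τ : C →ₗ[ℂ] ℂ) (alg : Set ℕ → StarSubalgebra ℂ C) (p : Polynomial ℝ)
    (I n : ℕ) (η : ℝ) (y : ℕ → β → C) (F : Finset β) : Prop where
  mem : ∀ k, pvec p I y (pool n k) F ∈ alg ↑(pool n k)
  sa : ∀ k, IsSelfAdjoint (pvec p I y (pool n k) F)
  mean : ∀ k, τ (pvec p I y (pool n k) F) = 0
  small : ∀ k, ‖η • pvec p I y (pool n k) F‖ ≤ 1 / 2
  sq_ge : ∀ k, 1 / 2 ≤ (τ (pvec p I y (pool n k) F * pvec p I y (pool n k) F)).re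
  sq_le : ∀ k, (τ (pvec p I y (pool n k) F * pvec p I y (pool n k) F)).re ≤ 3 / 2

theorem mart_spec (hy : Copies τ M y alg) (hb : PoolBounds τ alg p I n η y F) (k : ℕ) :
    mart p I n η y F k ∈ alg (Set.Iio (k * n)) ∧ IsSelfAdjoint (mart p I n η y F k) ∧
      ‖mart p I n η y F k‖ ≤ 1 ∧ τ (mart p I n η y F k) = 0 := by
  induction k with
  | zero => simp [mart]
  | succ k ih =>
    obtain ⟨hm, hs, hn, ht⟩ := ih
    set h := mart p I n η y F k
    set v := pvec p I y (pool n k) F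
    have hc : Commute h v := (hy.comm _ _ (pool_disjoint n k) v (hb.mem k) h hm).symm
    have hu : 1 - h * h ∈ alg (Set.Iio (k * n)) := sub_mem (one_mem _) (mul_mem hm hm)
    refine ⟨?_, ?_, ?_, ?_⟩
    · have h1 : alg (Set.Iio (k * n)) ≤ alg (Set.Iio ((k + 1) * n)) :=
        hy.mono (Set.Iio_subset_Iio (by simp [add_mul]))
      simp only [mart]
      refine add_mem (h1 hm) (mul_mem ?_ (h1 hu))
      rw [← Complex.coe_smul]
      exact SMulMemClass.smul_mem _ (hy.mono (pool_subset n k) (hb.mem k))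
    · simp only [mart]
      refine hs.add ?_
      refine (IsSelfAdjoint.commute_iff ((IsSelfAdjoint.all η).smul (hb.sa k))
        ((IsSelfAdjoint.one C).sub ((hs.commute_iff hs).1 (Commute.refl h)))).1 ?_
      exact ((Commute.one_right v).sub_right (hc.symm.mul_right hc.symm)).smul_left η
    · simp only [mart]
      exact (norm_step_le hs ((IsSelfAdjoint.all η).smul (hb.sa k)) (hc.smul_right η) hn
        (hb.small k)).1
    · simp only [mart]
      rw [map_add, ht, zero_add, smul_mul_assoc, ← Complex.coe_smul, map_smul,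
        hy.indep _ _ (pool_disjoint n k) _ (hb.mem k) _ hu, hb.mean k, zero_mul, smul_zero]

theorem l2_mul_indep (hy : Copies τ M y alg) {J J' : Set ℕ} (hd : Disjoint J J') {u w : C}
    (hu : u ∈ alg J) (hw : w ∈ alg J') (us : IsSelfAdjoint u) (ws : IsSelfAdjoint w) :
    l2 τ (u * w) ^ 2 = l2 τ u ^ 2 * l2 τ w ^ 2 := by
  have hc := hy.comm _ _ hd u hu w hw
  have huw : IsSelfAdjoint (u * w) := (us.commute_iff ws).1 hc
  have e : u * w * (u * w) = u * u * (w * w) := by
    rw [mul_assoc, ← mul_assoc w u w, ← hc.eq, mul_assoc u w w, ← mul_assoc u u]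
  rw [hy.tr.sa_sq huw, hy.tr.sa_sq us, hy.tr.sa_sq ws, e,
    hy.indep _ _ hd _ (mul_mem hu hu) _ (mul_mem hw hw), Complex.mul_re]
  have hi : (τ (u * u)).im = 0 := hy.tr.im_eq_zero ((us.commute_iff us).1 (Commute.refl u))
  rw [hi, zero_mul, sub_zero]

theorem mart_sq (hy : Copies τ M y alg) (hb : PoolBounds τ alg p I n η y F) (k : ℕ) :
    (τ (1 - mart p I n η y F (k + 1) * mart p I n η y F (k + 1))).re ≤
      (τ (1 - mart p I n η y F k * mart p I n η y F k)).re -
        η ^ 2 / 2 * (τ (1 - mart p I n η y F k * mart p I n η y F k)).re ^ 2 := by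
  obtain ⟨hm, hs, hn, -⟩ := mart_spec hy hb k
  set h := mart p I n η y F k with hdef
  set v := pvec p I y (pool n k) F with vdef
  set u := 1 - h * h with udef
  have hu : u ∈ alg (Set.Iio (k * n)) := sub_mem (one_mem _) (mul_mem hm hm)
  have hus : IsSelfAdjoint u := (IsSelfAdjoint.one C).sub ((hs.commute_iff hs).1 (Commute.refl h))
  have hc : Commute h v := (hy.comm _ _ (pool_disjoint n k) v (hb.mem k) h hm).symm
  have hcu : Commute v u := hy.comm _ _ (pool_disjoint n k) v (hb.mem k) u hu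
  have e : mart p I n η y F (k + 1) * mart p I n η y F (k + 1) =
      h * h + η • (v * (h * u) + v * (u * h)) + (η * η) • (v * v * (u * u)) := by
    simp only [mart, ← hdef, ← vdef, ← udef, add_mul, mul_add, smul_mul_assoc, mul_smul_comm,
      smul_smul]
    rw [show h * (v * u) = v * (h * u) by rw [← mul_assoc, hc.eq, mul_assoc],
      show v * u * h = v * (u * h) from mul_assoc _ _ _,
      show v * u * (v * u) = v * v * (u * u) by
        rw [mul_assoc, ← mul_assoc u v u, ← hcu.eq, mul_assoc v u u, ← mul_assoc v v]]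
    simp only [smul_add, smul_smul]
    abel
  have t0 : ∀ w ∈ alg (Set.Iio (k * n)), τ (v * w) = 0 := fun w hw => by
    rw [hy.indep _ _ (pool_disjoint n k) _ (hb.mem k) _ hw, hb.mean k, zero_mul]
  have hq : (τ u).re ^ 2 ≤ (τ (u * u)).re := hy.tr.re_sq_le hus
  have hA : 0 ≤ (τ (u * u)).re := (sq_nonneg _).trans hq
  rw [e, ← sub_sub, ← sub_sub, map_sub, map_sub, ← udef, ← Complex.coe_smul η,
    ← Complex.coe_smul (η * η), map_smul, map_smul, map_add, t0 _ (mul_mem hm hu),
    t0 _ (mul_mem hu hm), add_zero, smul_zero, sub_zero,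
    hy.indep _ _ (pool_disjoint n k) _ (mul_mem (hb.mem k) (hb.mem k)) _ (mul_mem hu hu)]
  simp only [Complex.sub_re, smul_eq_mul, Complex.re_ofReal_mul]
  rw [Complex.mul_re, hy.tr.im_eq_zero ((hus.commute_iff hus).1 (Commute.refl u)), mul_zero,
    sub_zero]
  nlinarith [hb.sq_ge k, mul_le_mul (hb.sq_ge k) hq (sq_nonneg _) ((show (0:ℝ) ≤ 1/2 by norm_num).trans (hb.sq_ge k)),
    sq_nonneg η]

theorem mart_sq_nonneg (hy : Copies τ M y alg) (hb : PoolBounds τ alg p I n η y F) (k : ℕ) :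
    0 ≤ (τ (1 - mart p I n η y F k * mart p I n η y F k)).re := by
  obtain ⟨-, hs, hn, -⟩ := mart_spec hy hb k
  rw [map_sub, Complex.sub_re, hy.tr.one, Complex.one_re, sub_nonneg, ← hy.tr.sa_sq hs]
  exact pow_le_one₀ (l2_nonneg _ _) ((hy.tr.l2_le_norm _).trans hn)

/-- After `k` steps with `k η² ε² ≥ 2` the defect of `h` is at most `ε`. -/
theorem mart_defect_le (hy : Copies τ M y alg) (hb : PoolBounds τ alg p I n η y F) (k : ℕ)
    {ε : ℝ} (hε : 0 < ε) (hk : 2 ≤ k * η ^ 2 * ε ^ 2) :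
    (τ (1 - mart p I n η y F k * mart p I n η y F k)).re ≤ ε := by
  by_contra hlt
  push Not at hlt
  set q := fun j => (τ (1 - mart p I n η y F j * mart p I n η y F j)).re
  have hstep : ∀ j, q (j + 1) ≤ q j - η ^ 2 / 2 * q j ^ 2 := fun j => mart_sq hy hb j
  have hanti : Antitone q := antitone_nat_of_succ_le fun j =>
    (hstep j).trans (by nlinarith [sq_nonneg η, sq_nonneg (q j)])
  have hlin : ∀ j ≤ k, q j ≤ 1 - j * (η ^ 2 / 2 * ε ^ 2) := by
    intro j hj
    induction j with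
    | zero => simp [q, mart, hy.tr.one]
    | succ j ih =>
      have hge : ε ≤ q j := hlt.le.trans (hanti (by omega))
      have := mul_le_mul_of_nonneg_left (pow_le_pow_left₀ hε.le hge 2)
        (show 0 ≤ η ^ 2 / 2 by positivity)
      push_cast
      linarith [hstep j, ih (by omega)]
  have := hlin k le_rfl
  nlinarith [mart_sq_nonneg hy hb k]

theorem mart_dist_step (hy : Copies τ M y alg) (hb : PoolBounds τ alg p I n η y F)
    (hb' : PoolBounds τ alg p I n η y F')
    (hd : ∀ j, l2 τ (pvec p I y (pool n j) F - pvec p I y (pool n j) F') ^ 2 ≤ e) (k : ℕ) :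
    l2 τ (mart p I n η y F (k + 1) - mart p I n η y F' (k + 1)) ^ 2 ≤
      (1 + 16 * η ^ 2) * l2 τ (mart p I n η y F k - mart p I n η y F' k) ^ 2 + 2 * η ^ 2 * e := by
  obtain ⟨hm, hs, hn, -⟩ := mart_spec hy hb k
  obtain ⟨gm, gs, gn, -⟩ := mart_spec hy hb' k
  set h := mart p I n η y F k with hdef
  set g := mart p I n η y F' k with gdef
  set v := pvec p I y (pool n k) F with vdef
  set w := pvec p I y (pool n k) F' with wdef
  set a := 1 - h * h with adef
  set b := 1 - g * g with bdef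
  have hd0 := pool_disjoint n k
  have ha : a ∈ alg (Set.Iio (k * n)) := sub_mem (one_mem _) (mul_mem hm hm)
  have hbm : b ∈ alg (Set.Iio (k * n)) := sub_mem (one_mem _) (mul_mem gm gm)
  have has : IsSelfAdjoint a := (IsSelfAdjoint.one C).sub ((hs.commute_iff hs).1 (Commute.refl h))
  have hbs : IsSelfAdjoint b := (IsSelfAdjoint.one C).sub ((gs.commute_iff gs).1 (Commute.refl g))
  have hva : IsSelfAdjoint (v * a) := ((hb.sa k).commute_iff has).1 (hy.comm _ _ hd0 v (hb.mem k) a ha)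
  have hwb : IsSelfAdjoint (w * b) :=
    ((hb'.sa k).commute_iff hbs).1 (hy.comm _ _ hd0 w (hb'.mem k) b hbm)
  set x := h - g
  set z := v * a - w * b with zdef
  have hx : x ∈ alg (Set.Iio (k * n)) := sub_mem hm gm
  have e1 : mart p I n η y F (k + 1) - mart p I n η y F' (k + 1) = x + η • z := by
    simp only [mart, ← hdef, ← gdef, ← vdef, ← wdef, ← adef, ← bdef, zdef, x, smul_sub,
      smul_mul_assoc]
    abel
  have cross : τ (z * x) = 0 := by
    rw [zdef, sub_mul, mul_assoc, mul_assoc, map_sub,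
      hy.indep _ _ hd0 _ (hb.mem k) _ (mul_mem ha hx), hb.mean k,
      hy.indep _ _ hd0 _ (hb'.mem k) _ (mul_mem hbm hx), hb'.mean k, zero_mul, zero_mul, sub_zero]
  have hxs : IsSelfAdjoint x := hs.sub gs
  have hzs : IsSelfAdjoint z := hva.sub hwb
  have e2 : l2 τ (x + η • z) ^ 2 = l2 τ x ^ 2 + η ^ 2 * l2 τ z ^ 2 := by
    rw [hy.tr.sa_sq (hxs.add ((IsSelfAdjoint.all η).smul hzs)), hy.tr.sa_sq hxs, hy.tr.sa_sq hzs]
    simp only [add_mul, mul_add, smul_mul_assoc, mul_smul_comm, smul_smul, map_add,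
      ← Complex.coe_smul, map_smul, hy.tr.comm x z, cross, Complex.add_re, smul_eq_mul, mul_zero,
      Complex.zero_re, add_zero, zero_add, Complex.mul_re, Complex.ofReal_re, Complex.ofReal_im,
      zero_mul, sub_zero]
    ring
  have hz : z = (v - w) * a + w * (g * g - h * h) := by
    simp only [zdef, adef, bdef]; noncomm_ring
  have hsub : IsSelfAdjoint (g * g - h * h) :=
    ((gs.commute_iff gs).1 (Commute.refl g)).sub ((hs.commute_iff hs).1 (Commute.refl h))
  have k1 : l2 τ ((v - w) * a) ^ 2 ≤ e := by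
    rw [l2_mul_indep hy hd0 (sub_mem (hb.mem k) (hb'.mem k)) ha ((hb.sa k).sub (hb'.sa k)) has]
    refine (mul_le_of_le_one_right (sq_nonneg _) ?_).trans (hd k)
    exact pow_le_one₀ (l2_nonneg _ _) ((hy.tr.l2_le_norm _).trans
      (norm_step_le hs (IsSelfAdjoint.zero C) (Commute.zero_right h) hn (by simp)).2)
  have k2 : l2 τ (w * (g * g - h * h)) ^ 2 ≤ 6 * l2 τ x ^ 2 := by
    rw [l2_mul_indep hy hd0 (hb'.mem k) (sub_mem (mul_mem gm gm) (mul_mem hm hm)) (hb'.sa k) hsub]
    have hw : l2 τ w ^ 2 ≤ 3 / 2 := by rw [hy.tr.sa_sq (hb'.sa k)]; exact hb'.sq_le k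
    have hgh : l2 τ (g * g - h * h) ≤ 2 * l2 τ x := by
      rw [show g * g - h * h = -(g * x + x * h) by simp only [x]; noncomm_ring, hy.tr.l2_neg]
      refine (hy.tr.l2_add_le _ _).trans ?_
      have e3 := (hy.tr.l2_mul_le g x).trans (mul_le_of_le_one_left (l2_nonneg _ _) gn)
      have e4 := (hy.tr.l2_mul_le' x h).trans (mul_le_of_le_one_right (l2_nonneg _ _) hn)
      linarith
    calc _ ≤ 3 / 2 * (2 * l2 τ x) ^ 2 :=
          mul_le_mul hw (pow_le_pow_left₀ (l2_nonneg _ _) hgh 2) (sq_nonneg _) (by norm_num)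
      _ = _ := by ring
  have k3 : l2 τ z ^ 2 ≤ 2 * e + 12 * l2 τ x ^ 2 := by
    rw [hz]
    nlinarith [hy.tr.l2_add_le ((v - w) * a) (w * (g * g - h * h)),
      l2_nonneg τ ((v - w) * a + w * (g * g - h * h)),
      sq_nonneg (l2 τ ((v - w) * a) - l2 τ (w * (g * g - h * h)))]
  rw [e1, e2]
  nlinarith [mul_le_mul_of_nonneg_left k3 (sq_nonneg η), sq_nonneg (η * l2 τ x)]

/-- The translates stay close. -/
theorem mart_dist_le (hy : Copies τ M y alg) (hb : PoolBounds τ alg p I n η y F)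
    (hb' : PoolBounds τ alg p I n η y F') (he : 0 ≤ e)
    (hd : ∀ j, l2 τ (pvec p I y (pool n j) F - pvec p I y (pool n j) F') ^ 2 ≤ e) (k : ℕ) :
    l2 τ (mart p I n η y F k - mart p I n η y F' k) ^ 2 ≤
      2 * e * (k * η ^ 2) * Real.exp (16 * (k * η ^ 2)) := by
  induction k with
  | zero => simp [mart, hy.tr.l2_zero]
  | succ k ih =>
    refine (mart_dist_step hy hb hb' hd k).trans ?_
    have h1 : 1 + 16 * η ^ 2 ≤ Real.exp (16 * η ^ 2) := by
      linarith [Real.add_one_le_exp (16 * η ^ 2)]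
    have h2 : (1 : ℝ) ≤ Real.exp (16 * ((k + 1 : ℕ) * η ^ 2)) := Real.one_le_exp (by positivity)
    have h3 : Real.exp (16 * η ^ 2) * Real.exp (16 * (k * η ^ 2)) =
        Real.exp (16 * ((k + 1 : ℕ) * η ^ 2)) := by
      rw [← Real.exp_add]; push_cast; ring_nf
    have h4 := mul_le_mul h1 ih (sq_nonneg _) (Real.exp_pos _).le
    rw [show Real.exp (16 * η ^ 2) * (2 * e * (k * η ^ 2) * Real.exp (16 * (k * η ^ 2))) =
      2 * e * (k * η ^ 2) * (Real.exp (16 * η ^ 2) * Real.exp (16 * (k * η ^ 2))) by ring, h3] at h4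
    have h5 := mul_le_mul_of_nonneg_left h2 (show 0 ≤ 2 * η ^ 2 * e by positivity)
    push_cast at h4 h5 ⊢
    linarith

end

end VAgent.P095.Gamma
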