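import Mathlib
import Vale.Agent.P095.Gamma.Trace

/-!
# P095: extremal tracial states factorize over commuting generating subalgebras
-/

set_option linter.style.haveILetI false

namespace VAgent.P095.Gamma

open scoped ComplexOrder
open Filter Topology

noncomputable section

variable {C : Type*} [CStarAlgebra C]

/-- A tracial state dominating only multiples of itself. -/
structure IsExtTr (τ : C →ₗ[ℂ] ℂ) : Prop where
  tr : IsTr τ
  dom : ∀ φ : C →ₗ[ℂ] ℂ, (∀ x y, φ (x * y) = φ (y * x)) →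
    (∀ a, 0 ≤ φ (star a * a) ∧ φ (star a * a) ≤ τ (star a * a)) → φ = φ 1 • τ

/-- The properties shared by all averages `u a u*`, `u` a unitary of `P`. -/
structure Avg (τ : C →ₗ[ℂ] ℂ) (P Q : StarSubalgebra ℂ C) (a z : C) : Prop where
  mem : z ∈ P
  sa : IsSelfAdjoint z
  norm_le : ‖z‖ ≤ 1
  tr_eq : ∀ b ∈ Q, τ (z * b) = τ (a * b)
  nonneg : ∀ y, 0 ≤ τ (star y * y * z)
  le : ∀ y, τ (star y * y * z) ≤ τ (star y * y)

variable {τ : C →ₗ[ℂ] ℂ} {P Q : StarSubalgebra ℂ C}

theorem convex_avg (a : C) : Convex ℝ {z | Avg τ P Q a z} := by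
  rintro x hx y hy c d hc hd hcd
  have e : ∀ w : C, τ (w * (c • x + d • y)) = (c : ℂ) * τ (w * x) + (d : ℂ) * τ (w * y) := by
    intro w; simp [mul_add, ← Complex.coe_smul]
  have hc' : (0 : ℂ) ≤ c := by exact_mod_cast hc
  have hd' : (0 : ℂ) ≤ d := by exact_mod_cast hd
  have hcd' : (c : ℂ) + d = 1 := by exact_mod_cast hcd
  refine ⟨?_, (IsSelfAdjoint.all c).smul hx.sa |>.add ((IsSelfAdjoint.all d).smul hy.sa), ?_, ?_,
    fun w => ?_, fun w => ?_⟩
  · simp only [← Complex.coe_smul]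
    exact add_mem (SMulMemClass.smul_mem _ hx.mem) (SMulMemClass.smul_mem _ hy.mem)
  · refine (norm_add_le _ _).trans ?_
    rw [norm_smul_of_nonneg hc, norm_smul_of_nonneg hd]
    nlinarith [hx.norm_le, hy.norm_le]
  · intro b hb
    rw [← Complex.coe_smul, ← Complex.coe_smul, add_mul, smul_mul_assoc, smul_mul_assoc, map_add,
      map_smul, map_smul, hx.tr_eq b hb, hy.tr_eq b hb, smul_eq_mul, smul_eq_mul, ← add_mul, hcd',
      one_mul]
  · rw [e]; exact add_nonneg (mul_nonneg hc' (hx.nonneg w)) (mul_nonneg hd' (hy.nonneg w))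
  · rw [e]
    calc _ ≤ (c : ℂ) * τ (star w * w) + (d : ℂ) * τ (star w * w) :=
          add_le_add (mul_le_mul_of_nonneg_left (hx.le w) hc')
            (mul_le_mul_of_nonneg_left (hy.le w) hd')
      _ = _ := by rw [← add_mul, hcd', one_mul]

theorem avg_conj (h : IsTr τ) (hPQ : ∀ p ∈ P, ∀ q ∈ Q, Commute p q) {a z u : C}
    (hz : Avg τ P Q a z) (hu : u ∈ unitary C) (huP : u ∈ P) :
    Avg τ P Q a (u * z * star u) := by
  refine ⟨mul_mem (mul_mem huP hz.mem) (star_mem huP), hz.sa.conjugate u, ?_, ?_, fun y => ?_,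
    fun y => ?_⟩
  · rw [CStarRing.norm_mul_mem_unitary _ (Unitary.star_mem hu), CStarRing.norm_mem_unitary_mul _ hu]
    exact hz.norm_le
  · intro b hb
    rw [mul_assoc, (hPQ _ (star_mem huP) b hb).eq, ← mul_assoc, h.comm, ← mul_assoc, ← mul_assoc,
      Unitary.star_mul_self_of_mem hu, one_mul, hz.tr_eq b hb]
  · have e : τ (star y * y * (u * z * star u)) = τ (star (y * u) * (y * u) * z) := by
      rw [← mul_assoc, h.comm, star_mul]; simp only [mul_assoc]
    rw [e]; exact hz.nonneg _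
  · have e : τ (star y * y * (u * z * star u)) = τ (star (y * u) * (y * u) * z) := by
      rw [← mul_assoc, h.comm, star_mul]; simp only [mul_assoc]
    rw [e]
    refine (hz.le _).trans (le_of_eq ?_)
    rw [star_mul, mul_assoc, ← mul_assoc (star y), h.comm, mul_assoc,
      Unitary.mul_star_self_of_mem hu, mul_one]

theorem avg_self (h : IsTr τ) {a s r : C} (hs : s ∈ P) (ha : a = star s * s)
    (hr : 1 - a = star r * r) (hn : ‖a‖ ≤ 1) : Avg τ P Q a a := by
  refine ⟨ha ▸ mul_mem (star_mem hs) hs, ha ▸ IsSelfAdjoint.star_mul_self s, hn, fun _ _ => rfl,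
    fun y => ?_, fun y => ?_⟩
  · have e : τ (star y * y * a) = τ (star (y * star s) * (y * star s)) := by
      rw [ha, ← mul_assoc, h.comm, star_mul, star_star]; simp only [mul_assoc]
    rw [e]; exact h.nonneg _
  · have e : τ (star y * y * (1 - a)) = τ (star (y * star r) * (y * star r)) := by
      rw [hr, ← mul_assoc, h.comm, star_mul, star_star]; simp only [mul_assoc]
    have := h.nonneg (y * star r)
    rw [← e, mul_sub, mul_one, map_sub, sub_nonneg] at this
    exact this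

theorem tendsto_sqrt_four_div :
    Tendsto (fun n : ℕ => √(4 / ((n : ℝ) + 1))) atTop (𝓝 0) := by
  have h := tendsto_one_div_add_atTop_nhds_zero_nat.const_mul (4 : ℝ)
  rw [mul_zero] at h
  simp only [mul_one_div] at h
  simpa [Function.comp_def] using (Real.continuous_sqrt.tendsto _).comp h

theorem l2_conj (h : IsTr τ) {u x : C} (hu : u ∈ unitary C) (hx : IsSelfAdjoint x) :
    l2 τ (u * x * star u) ^ 2 = l2 τ x ^ 2 := by
  have e : u * x * star u * (u * x * star u) = u * (x * x * star u) := by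
    rw [mul_assoc u x (star u), mul_assoc u (x * star u), mul_assoc x (star u),
      ← mul_assoc (star u) u, Unitary.star_mul_self_of_mem hu, one_mul, ← mul_assoc x]
  rw [h.sa_sq (hx.conjugate u), h.sa_sq hx, e, h.comm, mul_assoc,
    Unitary.star_mul_self_of_mem hu, mul_one]

/-- A minimizing sequence of averages. -/
theorem exists_avgSeq (h : IsTr τ) (hPQ : ∀ p ∈ P, ∀ q ∈ Q, Commute p q)
    {a s r : C} (hs : s ∈ P) (ha : a = star s * s) (hr : 1 - a = star r * r) (hn : ‖a‖ ≤ 1) :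
    ∃ z : ℕ → C, (∀ n, Avg τ P Q a (z n)) ∧
      (∀ N n m, N ≤ n → N ≤ m → l2 τ (z n - z m) ≤ √(4 / ((N : ℝ) + 1))) ∧
      ∀ u ∈ unitary C, u ∈ P → ∀ n, l2 τ (u * z n * star u - z n) ≤ √(4 / ((n : ℝ) + 1)) := by
  let K : Set C := convexHull ℝ {z | ∃ u ∈ unitary C, u ∈ P ∧ z = u * a * star u}
  have hK : ∀ z ∈ K, Avg τ P Q a z := fun z hz => convexHull_min (by
    rintro _ ⟨u, hu, huP, rfl⟩
    exact avg_conj h hPQ (avg_self h hs ha hr hn) hu huP) (convex_avg a) hz
  have haK : a ∈ K := subset_convexHull ℝ _ ⟨1, one_mem _, one_mem _, by simp⟩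
  have hconj : ∀ w ∈ unitary C, w ∈ P → ∀ z ∈ K, w * z * star w ∈ K := by
    intro w hw hwP z hz
    have : K ⊆ (fun x => w * x * star w) ⁻¹' K := by
      refine convexHull_min ?_ ((convex_convexHull ℝ _).linear_preimage
        ((LinearMap.mulRight ℝ (star w)).comp (LinearMap.mulLeft ℝ w)))
      rintro _ ⟨u, hu, huP, rfl⟩
      exact subset_convexHull ℝ _ ⟨w * u, mul_mem hw hu, mul_mem hwP huP, by
        simp [star_mul, mul_assoc]⟩
    exact this hz
  let d : ℝ := sInf ((fun z => l2 τ z ^ 2) '' K)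
  have hd : ∀ z ∈ K, d ≤ l2 τ z ^ 2 := fun z hz =>
    csInf_le ⟨0, by rintro _ ⟨z, _, rfl⟩; positivity⟩ ⟨z, hz, rfl⟩
  have hsel : ∀ n : ℕ, ∃ z ∈ K, l2 τ z ^ 2 < d + 1 / ((n : ℝ) + 1) := by
    intro n
    obtain ⟨_, ⟨z, hz, rfl⟩, hlt⟩ := exists_lt_of_csInf_lt (s := (fun z => l2 τ z ^ 2) '' K)
      ⟨_, a, haK, rfl⟩ (lt_add_of_pos_right d (by positivity : (0 : ℝ) < 1 / ((n : ℝ) + 1)))
    exact ⟨z, hz, hlt⟩
  choose z hzK hzd using hsel
  have hnear : ∀ x ∈ K, ∀ y ∈ K, l2 τ (x - y) ^ 2 ≤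
      2 * (l2 τ x ^ 2 - d) + 2 * (l2 τ y ^ 2 - d) := by
    intro x hx y hy
    have hm : (1 / 2 : ℝ) • x + (1 / 2 : ℝ) • y ∈ K :=
      convex_convexHull ℝ _ hx hy (by norm_num) (by norm_num) (by norm_num)
    have e := hd _ hm
    rw [← smul_add, h.l2_rsmul, mul_pow] at e
    norm_num at e
    linarith [h.parallelogram x y]
  refine ⟨z, fun n => hK _ (hzK n), fun N n m hn' hm' => ?_, fun u hu huP n => ?_⟩
  · refine Real.le_sqrt_of_sq_le ((hnear _ (hzK n) _ (hzK m)).trans ?_)
    have h1 : 1 / ((n : ℝ) + 1) ≤ 1 / ((N : ℝ) + 1) := by gcongr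
    have h2 : 1 / ((m : ℝ) + 1) ≤ 1 / ((N : ℝ) + 1) := by gcongr
    rw [show (4 : ℝ) / ((N : ℝ) + 1) = 4 * (1 / ((N : ℝ) + 1)) by ring]
    linarith [hzd n, hzd m]
  · refine Real.le_sqrt_of_sq_le ((hnear _ (hconj _ hu huP _ (hzK n)) _ (hzK n)).trans ?_)
    rw [l2_conj h hu (hK _ (hzK n)).sa,
      show (4 : ℝ) / ((n : ℝ) + 1) = 4 * (1 / ((n : ℝ) + 1)) by ring]
    linarith [hzd n]

/-- The elements asymptotically commuting in 2-norm with a sequence of contractions. -/
def asympComm (h : IsTr τ) (z : ℕ → C) (hsa : ∀ n, IsSelfAdjoint (z n)) : StarSubalgebra ℂ C where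
  carrier := {y | Tendsto (fun n => l2 τ (y * z n - z n * y)) atTop (𝓝 0)}
  mul_mem' {x y} hx hy := by
    refine squeeze_zero (g := fun n => ‖x‖ * l2 τ (y * z n - z n * y) +
      l2 τ (x * z n - z n * x) * ‖y‖) (fun n => l2_nonneg _ _) (fun n => ?_)
      (by simpa using (hy.const_mul ‖x‖).add (hx.mul_const ‖y‖))
    rw [show x * y * z n - z n * (x * y) =
      x * (y * z n - z n * y) + (x * z n - z n * x) * y by noncomm_ring]
    exact (h.l2_add_le _ _).trans (add_le_add (h.l2_mul_le _ _) (h.l2_mul_le' _ _))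
  add_mem' {x y} hx hy := by
    refine squeeze_zero (g := fun n => l2 τ (x * z n - z n * x) + l2 τ (y * z n - z n * y))
      (fun n => l2_nonneg _ _) (fun n => ?_) (by simpa using hx.add hy)
    rw [show (x + y) * z n - z n * (x + y) =
      (x * z n - z n * x) + (y * z n - z n * y) by noncomm_ring]
    exact h.l2_add_le _ _
  algebraMap_mem' c := by simp [Algebra.commutes, h.l2_zero]
  star_mem' {x} hx := by
    refine hx.congr fun n => ?_
    rw [← h.l2_star, star_sub, star_mul, star_mul, (hsa n).star_eq, ← neg_sub, h.l2_neg]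

theorem isClosed_asympComm (h : IsTr τ) (z : ℕ → C) (hsa : ∀ n, IsSelfAdjoint (z n))
    (hz : ∀ n, ‖z n‖ ≤ 1) : IsClosed (asympComm h z hsa : Set C) := by
  refine isClosed_of_closure_subset fun y hy => ?_
  refine Metric.tendsto_nhds.2 fun ε hε => ?_
  obtain ⟨y', hy', hd'⟩ := Metric.mem_closure_iff.1 hy (ε / 4) (by positivity)
  filter_upwards [Metric.tendsto_nhds.1 hy' (ε / 4) (by positivity)] with n hn
  rw [dist_zero_right, Real.norm_of_nonneg (l2_nonneg _ _)] at hn ⊢
  rw [dist_eq_norm] at hd'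
  rw [show y * z n - z n * y =
    (y' * z n - z n * y') + ((y - y') * z n - z n * (y - y')) by noncomm_ring]
  have h0 := h.l2_add_le (y' * z n - z n * y') ((y - y') * z n - z n * (y - y'))
  have h3 := h.l2_sub_le ((y - y') * z n) (z n * (y - y'))
  have h1 := (h.l2_le_norm ((y - y') * z n)).trans ((norm_mul_le _ _).trans
    (mul_le_of_le_one_right (norm_nonneg _) (hz n)))
  have h2 := (h.l2_le_norm (z n * (y - y'))).trans ((norm_mul_le _ _).trans
    (mul_le_of_le_one_left (norm_nonneg _) (hz n)))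
  linarith

theorem subset_asympComm (h : IsTr τ) [IsClosed (P : Set C)] (z : ℕ → C)
    (hsa : ∀ n, IsSelfAdjoint (z n))
    (hu : ∀ u ∈ unitary C, u ∈ P → ∀ n, l2 τ (u * z n * star u - z n) ≤ √(4 / ((n : ℝ) + 1))) :
    (P : Set C) ⊆ asympComm h z hsa := by
  intro p hp
  show p ∈ asympComm h z hsa
  suffices ∀ x : P, x ∈ Submodule.span ℂ (unitary P : Set P) → (x : C) ∈ asympComm h z hsa from
    this ⟨p, hp⟩ (by rw [CStarAlgebra.span_unitary (A := P)]; trivial)
  intro x hx
  induction hx using Submodule.span_induction with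
  | zero => exact zero_mem _
  | add x y _ _ hx hy => exact add_mem hx hy
  | smul c x _ hx => exact SMulMemClass.smul_mem c hx
  | mem u hu' =>
    have huC : (u : C) ∈ unitary C := ⟨congrArg Subtype.val hu'.1, congrArg Subtype.val hu'.2⟩
    refine squeeze_zero (fun n => l2_nonneg _ _) (fun n => ?_) tendsto_sqrt_four_div
    have e : (u : C) * z n - z n * (u : C) =
        ((u : C) * z n * star (u : C) - z n) * (u : C) := by
      rw [sub_mul, mul_assoc _ (star _), Unitary.star_mul_self_of_mem huC, mul_one]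
    rw [e]
    refine (h.l2_mul_le' _ _).trans ((mul_le_of_le_one_right (l2_nonneg _ _) ?_).trans
      (hu _ huC u.2 n))
    rcases subsingleton_or_nontrivial C with hC | hC
    · simp [Subsingleton.elim (u : C) 0]
    · exact (CStarRing.norm_of_mem_unitary huC).le

theorem indep_nonneg (h : IsExtTr τ) [IsClosed (P : Set C)]
    (hPQ : ∀ p ∈ P, ∀ q ∈ Q, Commute p q)
    (hgen : (StarAlgebra.adjoin ℂ ((P : Set C) ∪ Q)).topologicalClosure = ⊤)
    {a s r : C} (hs : s ∈ P) (ha : a = star s * s) (hr : 1 - a = star r * r) (hn : ‖a‖ ≤ 1)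
    {b : C} (hb : b ∈ Q) : τ (a * b) = τ a * τ b := by
  obtain ⟨z, hz, hzz, hzu⟩ := exists_avgSeq h.tr hPQ hs ha hr hn
  let F : ℕ → C →ₗ[ℂ] ℂ := fun n => τ.comp (LinearMap.mulLeft ℂ (z n))
  have hcauchy : ∀ y, CauchySeq fun n => F n y := by
    intro y
    refine cauchySeq_of_le_tendsto_0 (fun n : ℕ => √(4 / ((n : ℝ) + 1)) * l2 τ y) ?_ ?_
    · intro n m N hn' hm'
      rw [dist_eq_norm, show F n y - F m y = τ ((z n - z m) * y) by simp [F, sub_mul]]
      exact (h.tr.norm_mul_le _ _).trans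
        (mul_le_mul_of_nonneg_right (hzz N n m hn' hm') (l2_nonneg _ _))
    · simpa using tendsto_sqrt_four_div.mul_const (l2 τ y)
  choose φ₀ hφ₀ using fun y => cauchySeq_tendsto_of_complete (hcauchy y)
  let φ : C →ₗ[ℂ] ℂ := linearMapOfTendsto φ₀ F (tendsto_pi_nhds.2 hφ₀)
  have hφ : ∀ y, Tendsto (fun n => τ (z n * y)) atTop (𝓝 (φ y)) := hφ₀
  have hcent : ∀ y, Tendsto (fun n => l2 τ (y * z n - z n * y)) atTop (𝓝 0) := by
    intro y
    have hQ : (Q : Set C) ⊆ asympComm h.tr z fun n => (hz n).sa := fun q hq => by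
      refine tendsto_const_nhds.congr fun n => ?_
      rw [(hPQ _ (hz n).mem q hq).eq, sub_self, h.tr.l2_zero]
    have hle := StarSubalgebra.topologicalClosure_minimal
      (StarAlgebra.adjoin_le (Set.union_subset (subset_asympComm h.tr z _ hzu) hQ))
      (isClosed_asympComm h.tr z _ fun n => (hz n).norm_le)
    exact hle (hgen ▸ (trivial : y ∈ (⊤ : StarSubalgebra ℂ C)))
  have htr : ∀ x y, φ (x * y) = φ (y * x) := by
    intro x y
    refine tendsto_nhds_unique (hφ _) ?_
    have hlim : Tendsto (fun n => τ ((z n * x - x * z n) * y)) atTop (𝓝 0) := by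
      refine squeeze_zero_norm (fun n => h.tr.norm_mul_le _ _) ?_
      have e : ∀ n, l2 τ (x * z n - z n * x) = l2 τ (z n * x - x * z n) := fun n => by
        rw [← h.tr.l2_neg, neg_sub]
      simpa using ((hcent x).congr e).mul_const (l2 τ y)
    have := (hφ (y * x)).add hlim
    rw [add_zero] at this
    refine this.congr fun n => ?_
    rw [sub_mul, map_sub, ← mul_assoc, h.tr.comm (z n * y) x]
    simp only [mul_assoc]
    abel
  have hpos : ∀ y, 0 ≤ φ (star y * y) ∧ φ (star y * y) ≤ τ (star y * y) := by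
    intro y
    have e : ∀ n, τ (z n * (star y * y)) = τ (star y * y * z n) := fun n => h.tr.comm _ _
    refine ⟨ge_of_tendsto' (hφ _) fun n => ?_, le_of_tendsto' (hφ _) fun n => ?_⟩
    · rw [e]; exact (hz n).nonneg y
    · rw [e]; exact (hz n).le y
  have hval : ∀ c ∈ Q, φ c = τ (a * c) := fun c hc => tendsto_nhds_unique (hφ c)
    (tendsto_const_nhds.congr fun n => ((hz n).tr_eq c hc).symm)
  have key := hval b hb
  rw [h.dom φ htr hpos, LinearMap.smul_apply, smul_eq_mul, hval 1 (one_mem _), mul_one] at key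
  exact key.symm

/-- Extremal tracial states factorize over commuting generating subalgebras. -/
theorem indep (h : IsExtTr τ) [IsClosed (P : Set C)]
    (hPQ : ∀ p ∈ P, ∀ q ∈ Q, Commute p q)
    (hgen : (StarAlgebra.adjoin ℂ ((P : Set C) ∪ Q)).topologicalClosure = ⊤)
    {a : C} (ha : a ∈ P) {b : C} (hb : b ∈ Q) : τ (a * b) = τ a * τ b := by
  letI := CStarAlgebra.spectralOrder P
  letI := CStarAlgebra.spectralOrderedRing P
  suffices ∀ x : P, τ ((x : C) * b) = τ x * τ b from this ⟨a, ha⟩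
  intro x
  have hx : x ∈ Submodule.span ℂ {y : P | 0 ≤ y} := by
    rw [CStarAlgebra.span_nonneg]; trivial
  induction hx using Submodule.span_induction with
  | zero => simp
  | add x y _ _ hx hy => simp [add_mul, hx, hy]
  | smul c x _ hx => simp [hx, mul_assoc]
  | mem y hy =>
    set t : ℝ := ‖y‖ + 1 with ht
    have ht0 : 0 < t := by positivity
    have h0 : 0 ≤ t⁻¹ • y := smul_nonneg (by positivity) hy
    have hn : ‖t⁻¹ • y‖ ≤ 1 := by
      rw [norm_smul, norm_inv, Real.norm_of_nonneg ht0.le, inv_mul_le_iff₀ ht0, mul_one]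
      linarith
    have h1 : 0 ≤ 1 - t⁻¹ • y :=
      sub_nonneg.2 ((CStarAlgebra.norm_le_one_iff_of_nonneg _ h0).1 hn)
    obtain ⟨s, hs⟩ := CStarAlgebra.nonneg_iff_eq_star_mul_self.1 h0
    obtain ⟨r, hr⟩ := CStarAlgebra.nonneg_iff_eq_star_mul_self.1 h1
    have key := indep_nonneg h hPQ hgen s.2
      (show ((t⁻¹ • y : P) : C) = star (s : C) * s from congrArg Subtype.val hs)
      (show 1 - ((t⁻¹ • y : P) : C) = star (r : C) * r from congrArg Subtype.val hr) hn hb
    have e : ((t⁻¹ • y : P) : C) = (t⁻¹ : ℂ) • (y : C) := by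
      rw [← Complex.ofReal_inv, Complex.coe_smul]; rfl
    rw [e, smul_mul_assoc, map_smul, map_smul, smul_eq_mul, smul_eq_mul, mul_assoc] at key
    exact mul_left_cancel₀ (by simpa using ht0.ne') key

end

end VAgent.P095.Gamma
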