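import Mathlib
import Vale.Agent.P095.Gamma.Indep

/-!
# P095: linear inequalities pass from extremal tracial states to all tracial states
-/

namespace VAgent.P095.Gamma

open scoped ComplexOrder
open Filter Topology

noncomputable section

variable {C : Type*} [CStarAlgebra C]

/-- The tracial states as points of the product space `C → ℂ`. -/
def trSet (C : Type*) [CStarAlgebra C] : Set (C → ℂ) :=
  {f | ∃ τ : C →ₗ[ℂ] ℂ, IsTr τ ∧ ⇑τ = f}

theorem mem_trSet {f : C → ℂ} : f ∈ trSet C ↔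
    (∀ a b, f (a + b) = f a + f b) ∧ (∀ (c : ℂ) a, f (c • a) = c * f a) ∧
      (∀ a, 0 ≤ f (star a * a)) ∧ f 1 = 1 ∧ ∀ a b, f (a * b) = f (b * a) := by
  constructor
  · rintro ⟨τ, h, rfl⟩
    refine ⟨fun a b => map_add τ a b, fun c a => ?_, fun a => h.nonneg a, h.one, fun a b => h.comm a b⟩
    rw [map_smul, smul_eq_mul]
  · rintro ⟨h1, h2, h3, h4, h5⟩
    let τ : C →ₗ[ℂ] ℂ := { toFun := f, map_add' := h1, map_smul' := fun c a => h2 c a }
    exact ⟨τ, ⟨h3, h4, h5⟩, rfl⟩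

theorem isCompact_trSet : IsCompact (trSet C) := by
  refine (isCompact_univ_pi fun a : C => isCompact_closedBall (0 : ℂ) ‖a‖).of_isClosed_subset ?_ ?_
  · have e : trSet C =
        (⋂ a : C, ⋂ b : C, {f : C → ℂ | f (a + b) = f a + f b}) ∩
        ((⋂ c : ℂ, ⋂ a : C, {f : C → ℂ | f (c • a) = c * f a}) ∩
        ((⋂ a : C, {f : C → ℂ | 0 ≤ f (star a * a)}) ∩
        ({f : C → ℂ | f 1 = 1} ∩ ⋂ a : C, ⋂ b : C, {f : C → ℂ | f (a * b) = f (b * a)}))) := by
      ext f; simp [mem_trSet]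
    rw [e]
    have c1 : ∀ a : C, Continuous fun f : C → ℂ => f a := fun a => continuous_apply a
    have k1 : ∀ a b : C, IsClosed {f : C → ℂ | f (a + b) = f a + f b} := fun a b =>
      isClosed_eq (c1 (a + b)) ((c1 a).add (c1 b))
    have k2 : ∀ (c : ℂ) (a : C), IsClosed {f : C → ℂ | f (c • a) = c * f a} := fun c a =>
      isClosed_eq (c1 (c • a)) (continuous_const.mul (c1 a))
    have k3 : ∀ a : C, IsClosed {f : C → ℂ | 0 ≤ f (star a * a)} := fun a =>
      isClosed_le continuous_const (c1 (star a * a))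
    have k4 : IsClosed {f : C → ℂ | f 1 = 1} := isClosed_eq (c1 1) continuous_const
    have k5 : ∀ a b : C, IsClosed {f : C → ℂ | f (a * b) = f (b * a)} := fun a b =>
      isClosed_eq (c1 (a * b)) (c1 (b * a))
    exact (isClosed_iInter fun a => isClosed_iInter (k1 a)).inter
      ((isClosed_iInter fun c => isClosed_iInter (k2 c)).inter
        ((isClosed_iInter k3).inter (k4.inter (isClosed_iInter fun a => isClosed_iInter (k5 a)))))
  · rintro _ ⟨τ, h, rfl⟩ a -
    simpa using h.norm_le a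

theorem convex_trSet : Convex ℝ (trSet C) := by
  intro x hx y hy c d hc hd hcd
  obtain ⟨τ, hτ, rfl⟩ := hx
  obtain ⟨σ, hσ, rfl⟩ := hy
  refine ⟨(c : ℂ) • τ + (d : ℂ) • σ, ⟨fun a => ?_, ?_, fun a b => ?_⟩, ?_⟩
  · exact add_nonneg (mul_nonneg (by exact_mod_cast hc) (hτ.nonneg a))
      (mul_nonneg (by exact_mod_cast hd) (hσ.nonneg a))
  · simp [hτ.one, hσ.one]; exact_mod_cast hcd
  · simp [hτ.comm a b, hσ.comm a b]
  · funext a; simp [Complex.real_smul]

theorem isExtTr_of_extremePoint {τ : C →ₗ[ℂ] ℂ} (hφ : ⇑τ ∈ (trSet C).extremePoints ℝ) :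
    IsExtTr τ := by
  obtain ⟨τ', hτ', e⟩ := hφ.1
  have hτ : IsTr τ := DFunLike.coe_injective e ▸ hτ'
  refine ⟨hτ, fun φ hcomm hdom => ?_⟩
  have h1 := hdom 1
  rw [star_one, one_mul, hτ.one] at h1
  set c := (φ 1).re with hcdef
  have hc : φ 1 = (c : ℂ) :=
    Complex.ext rfl (by simpa using (Complex.nonneg_iff.1 h1.1).2.symm)
  have hc0 : 0 ≤ c := (Complex.nonneg_iff.1 h1.1).1
  have hc1 : c ≤ 1 := by simpa using (Complex.le_def.1 h1.2).1
  have hp : (0 : ℝ) < 1 + c := by linarith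
  have hm : (0 : ℝ) < 2 - c := by linarith
  let σ : C →ₗ[ℂ] ℂ := (((1 + c)⁻¹ : ℝ) : ℂ) • (φ + τ)
  let ρ : C →ₗ[ℂ] ℂ := (((2 - c)⁻¹ : ℝ) : ℂ) • ((2 : ℂ) • τ - φ)
  have hσ : IsTr σ := by
    refine ⟨fun a => ?_, ?_, fun a b => by simp [σ, hcomm a b, hτ.comm a b]⟩
    · exact mul_nonneg (by exact_mod_cast (inv_nonneg.2 hp.le))
        (add_nonneg (hdom a).1 (hτ.nonneg a))
    · simp only [σ, LinearMap.smul_apply, LinearMap.add_apply, hc, hτ.one, smul_eq_mul]
      rw [← Complex.ofReal_one, ← Complex.ofReal_add, ← Complex.ofReal_mul, add_comm c,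
        inv_mul_cancel₀ hp.ne']
  have hρ : IsTr ρ := by
    refine ⟨fun a => ?_, ?_, fun a b => by simp [ρ, hcomm a b, hτ.comm a b]⟩
    · refine mul_nonneg (by exact_mod_cast (inv_nonneg.2 hm.le)) ?_
      simp only [LinearMap.sub_apply, LinearMap.smul_apply, smul_eq_mul, sub_nonneg]
      exact (hdom a).2.trans (le_mul_of_one_le_left (hτ.nonneg a) (by norm_num))
    · simp only [ρ, LinearMap.smul_apply, LinearMap.sub_apply, hc, hτ.one, smul_eq_mul, mul_one]
      rw [show (2 : ℂ) = ((2 : ℝ) : ℂ) by norm_num, ← Complex.ofReal_sub, ← Complex.ofReal_mul,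
        inv_mul_cancel₀ hm.ne', Complex.ofReal_one]
  have hseg : ⇑τ ∈ openSegment ℝ (⇑σ) (⇑ρ) := by
    refine ⟨(1 + c) / 3, (2 - c) / 3, by positivity, by positivity, by ring, ?_⟩
    funext a
    simp only [Pi.add_apply, Pi.smul_apply, Complex.real_smul, σ, ρ, LinearMap.smul_apply,
      LinearMap.add_apply, LinearMap.sub_apply, smul_eq_mul]
    have hpc : (1 + c : ℂ) ≠ 0 := by exact_mod_cast hp.ne'
    have hmc : (2 - c : ℂ) ≠ 0 := by exact_mod_cast hm.ne'
    push_cast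
    field_simp
    ring
  have heq : ⇑σ = ⇑τ := hφ.2 ⟨σ, hσ, rfl⟩ ⟨ρ, hρ, rfl⟩ hseg
  refine LinearMap.ext fun a => ?_
  have ha : σ a = τ a := congrFun heq a
  have hpc : (1 + c : ℂ) ≠ 0 := by exact_mod_cast hp.ne'
  simp only [σ, LinearMap.smul_apply, LinearMap.add_apply, smul_eq_mul, Complex.ofReal_inv,
    Complex.ofReal_add, Complex.ofReal_one] at ha
  rw [inv_mul_eq_iff_eq_mul₀ hpc] at ha
  rw [LinearMap.smul_apply, smul_eq_mul, hc]
  linear_combination ha

/-- A linear inequality valid for all extremal tracial states holds for all of them. -/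
theorem re_le_of_ext {f : C} {r : ℝ} (hf : ∀ τ : C →ₗ[ℂ] ℂ, IsExtTr τ → (τ f).re ≤ r)
    {τ : C →ₗ[ℂ] ℂ} (hτ : IsTr τ) : (τ f).re ≤ r := by
  let H : Set (C → ℂ) := {φ | (φ f).re ≤ r}
  have hH : IsClosed H :=
    isClosed_le (Complex.continuous_re.comp (continuous_apply f)) continuous_const
  have hHc : Convex ℝ H := by
    intro x hx y hy c d hc hd hcd
    have hx' : (x f).re ≤ r := hx
    have hy' : (y f).re ≤ r := hy
    show ((c • x + d • y) f).re ≤ r
    simp only [Pi.add_apply, Pi.smul_apply, Complex.add_re, Complex.smul_re, smul_eq_mul]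
    calc _ ≤ c * r + d * r := by gcongr
      _ = r := by rw [← add_mul, hcd, one_mul]
  have hmem : ⇑τ ∈ trSet C := ⟨τ, hτ, rfl⟩
  rw [← closure_convexHull_extremePoints isCompact_trSet convex_trSet] at hmem
  refine closure_minimal (convexHull_min (fun φ hφ => ?_) hHc) hH hmem
  obtain ⟨σ, -, rfl⟩ := hφ.1
  exact hf σ (isExtTr_of_extremePoint hφ)

/-- A linear equation valid for all extremal tracial states holds for all of them. -/
theorem eq_zero_of_ext {f : C} (hf : ∀ τ : C →ₗ[ℂ] ℂ, IsExtTr τ → τ f = 0)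
    {τ : C →ₗ[ℂ] ℂ} (hτ : IsTr τ) : τ f = 0 := by
  have h : ∀ c : ℂ, (τ (c • f)).re ≤ 0 := fun c =>
    re_le_of_ext (fun σ hσ => by simp [hf σ hσ]) hτ
  have h1 := h 1
  have h2 := h (-1)
  have h3 := h Complex.I
  have h4 := h (-Complex.I)
  simp at h1 h2 h3 h4
  exact Complex.ext (by simp; linarith) (by simp; linarith)

end

end VAgent.P095.Gamma
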