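import Mathlib
import Vale.Agent.P095.Gamma.Extremal
import Vale.Agent.P095.Gamma.PoolDefs

/-!
# P095: commuting translated copies give independent copies under extremal tracial states
-/

namespace VAgent.P095.Gamma

open scoped ComplexOrder

noncomputable section

variable {C : Type*} [CStarAlgebra C]

/-- The closed unital star subalgebra generated by a set. -/
def gen (s : Set C) : StarSubalgebra ℂ C := (StarAlgebra.adjoin ℂ s).topologicalClosure

instance isClosed_gen (s : Set C) : IsClosed (gen s : Set C) :=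
  StarSubalgebra.isClosed_topologicalClosure _

theorem subset_gen (s : Set C) : s ⊆ gen s := fun _ hx =>
  StarSubalgebra.le_topologicalClosure _ (StarAlgebra.subset_adjoin ℂ _ hx)

theorem gen_le {s : Set C} {A : StarSubalgebra ℂ C} (h : s ⊆ A) (hA : IsClosed (A : Set C)) :
    gen s ≤ A :=
  StarSubalgebra.topologicalClosure_minimal (StarAlgebra.adjoin_le h) hA

theorem gen_mono {s t : Set C} (h : s ⊆ t) : gen s ≤ gen t :=
  gen_le (h.trans (subset_gen t)) (isClosed_gen t)

theorem commute_gen {s t : Set C}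
    (h : ∀ a ∈ s, ∀ b ∈ t, Commute a b ∧ Commute (star a) b) :
    ∀ x ∈ gen s, ∀ z ∈ gen t, Commute x z := by
  have h1 : gen s ≤ StarSubalgebra.centralizer ℂ t := by
    refine gen_le (fun a ha => ?_) (Set.isClosed_centralizer _)
    rw [SetLike.mem_coe, StarSubalgebra.mem_centralizer_iff]
    intro b hb
    obtain ⟨e, e'⟩ := h a ha b hb
    exact ⟨e.eq.symm, (by simpa using e'.star_star : Commute a (star b)).eq.symm⟩
  have h2 : gen t ≤ StarSubalgebra.centralizer ℂ (gen s : Set C) := by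
    refine gen_le (fun b hb => ?_) (Set.isClosed_centralizer _)
    rw [SetLike.mem_coe, StarSubalgebra.mem_centralizer_iff]
    intro x hx
    have hx1 := (StarSubalgebra.mem_centralizer_iff ℂ).1 (h1 hx) b hb
    have hx2 := (StarSubalgebra.mem_centralizer_iff ℂ).1 (h1 (star_mem hx)) b hb
    exact ⟨hx1.1.symm, hx2.1.symm⟩
  intro x hx z hz
  exact ((StarSubalgebra.mem_centralizer_iff ℂ).1 (h2 hz) x hx).1

variable {F : Type*} [CStarAlgebra F]

/-- A closed generated subalgebra is generated by the preimage of the generators. -/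
theorem gen_preimage_eq_top (s : Set F) :
    gen (((↑) : gen s → F) ⁻¹' s) = ⊤ := by
  refine top_unique fun x _ => ?_
  show x ∈ gen _
  have hx : (x : F) ∈ closure (StarAlgebra.adjoin ℂ s : Set F) := x.2
  show x ∈ closure (StarAlgebra.adjoin ℂ (((↑) : gen s → F) ⁻¹' s) : Set (gen s))
  rw [Topology.IsInducing.subtypeVal.closure_eq_preimage_closure_image]
  refine closure_mono ?_ hx
  have hle : StarAlgebra.adjoin ℂ s ≤
      (StarAlgebra.adjoin ℂ (((↑) : gen s → F) ⁻¹' s)).map (gen s).subtype := by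
    refine StarAlgebra.adjoin_le fun a ha => ?_
    exact ⟨⟨a, subset_gen s ha⟩, StarAlgebra.subset_adjoin ℂ _ (show a ∈ s from ha), rfl⟩
  intro a ha
  obtain ⟨z, hz, rfl⟩ := hle ha
  exact ⟨z, hz, rfl⟩

variable {D : Type*} [CStarAlgebra D] {β : Type*}

/-- Translated copies of `D` commuting with each other and with `S₀`, generating `C`. -/
structure Sys (ψ : ℕ → β → D →⋆ₐ[ℂ] C) (S₀ : Set C) : Prop where
  comm : ∀ i j, i ≠ j → ∀ a b d d', Commute (ψ i a d) (ψ j b d')
  comm_base : ∀ z ∈ S₀, ∀ i a d, Commute z (ψ i a d)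
  generates : gen (S₀ ∪ ⋃ i, ⋃ a, Set.range (ψ i a)) = ⊤

/-- The algebra of the copies in `J`. -/
def part (ψ : ℕ → β → D →⋆ₐ[ℂ] C) (J : Set ℕ) : StarSubalgebra ℂ C :=
  gen (⋃ i ∈ J, ⋃ a, Set.range (ψ i a))

variable {ψ : ℕ → β → D →⋆ₐ[ℂ] C} {S₀ : Set C}

theorem mem_part {J : Set ℕ} {i : ℕ} (hi : i ∈ J) (a : β) (d : D) : ψ i a d ∈ part ψ J :=
  subset_gen _ (by simp only [Set.mem_iUnion]; exact ⟨i, hi, a, d, rfl⟩)

theorem part_mono : Monotone (part ψ) := fun _ _ h =>
  gen_mono (Set.biUnion_subset_biUnion_left h)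

theorem Sys.commute_rest (hs : Sys ψ S₀) (J : Set ℕ) :
    ∀ u ∈ part ψ J, ∀ w ∈ gen (S₀ ∪ ⋃ i ∈ Jᶜ, ⋃ a, Set.range (ψ i a)), Commute u w := by
  refine commute_gen fun a ha b hb => ?_
  simp only [Set.mem_iUnion] at ha
  obtain ⟨i, hi, g, d, rfl⟩ := ha
  rw [← map_star]
  rcases hb with hb | hb
  · exact ⟨(hs.comm_base b hb i g d).symm, (hs.comm_base b hb i g (star d)).symm⟩
  · simp only [Set.mem_iUnion] at hb
    obtain ⟨j, hj, g', d', rfl⟩ := hb
    have hne : i ≠ j := fun e => hj (e ▸ hi)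
    exact ⟨hs.comm i j hne g g' d d', hs.comm i j hne g g' _ d'⟩

theorem Sys.indep_rest (hs : Sys ψ S₀) {τ : C →ₗ[ℂ] ℂ} (hτ : IsExtTr τ) (J : Set ℕ) {u w : C}
    (hu : u ∈ part ψ J) (hw : w ∈ gen (S₀ ∪ ⋃ i ∈ Jᶜ, ⋃ a, Set.range (ψ i a))) :
    τ (u * w) = τ u * τ w := by
  have : IsClosed (part ψ J : Set C) := isClosed_gen _
  refine indep hτ (hs.commute_rest J) (top_unique (hs.generates ▸ gen_le ?_ ?_)) hu hw
  · rintro x (hx | hx)
    · exact StarSubalgebra.le_topologicalClosure _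
        (StarAlgebra.subset_adjoin ℂ _ (Or.inr (subset_gen _ (Or.inl hx))))
    · simp only [Set.mem_iUnion] at hx
      obtain ⟨i, a, d, rfl⟩ := hx
      refine StarSubalgebra.le_topologicalClosure _ (StarAlgebra.subset_adjoin ℂ _ ?_)
      by_cases hi : i ∈ J
      · exact Or.inl (mem_part hi a d)
      · refine Or.inr (subset_gen _ (Or.inr ?_))
        simp only [Set.mem_iUnion]
        exact ⟨i, hi, a, d, rfl⟩
  · exact StarSubalgebra.isClosed_topologicalClosure _

/-- The translates of a central normalised element form independent copies. -/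
theorem Sys.copies (hs : Sys ψ S₀) {τ : C →ₗ[ℂ] ℂ} (hτ : IsExtTr τ) {x : D}
    (hx : IsSelfAdjoint x) (h1 : x ∈ commSums D) (h2 : x * x - 1 ∈ commSums D) :
    Copies τ ‖x‖ (fun i a => ψ i a x) (part ψ) := by
  have hsub : ∀ J J' : Set ℕ, Disjoint J J' →
      part ψ J' ≤ gen (S₀ ∪ ⋃ i ∈ Jᶜ, ⋃ a, Set.range (ψ i a)) := fun J J' hd =>
    gen_mono (Set.subset_union_of_subset_right
      (Set.biUnion_subset_biUnion_left (Set.subset_compl_iff_disjoint_left.2 hd)) _)
  refine ⟨hτ.tr, fun J i a hi => mem_part hi a x, part_mono, ?_, ?_,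
    fun i a => hx.map (ψ i a), fun i a => NonUnitalStarAlgHom.norm_apply_le (ψ i a) x, fun i a => ?_,
    fun i a => ?_⟩
  · exact fun J J' hd u hu w hw => hs.commute_rest J u hu w (hsub J J' hd hw)
  · exact fun J J' hd u hu w hw => hs.indep_rest hτ J hu (hsub J J' hd hw)
  · exact hτ.tr.commSums_eq_zero (commSums_map (ψ i a) h1)
  · have := hτ.tr.commSums_eq_zero (commSums_map (ψ i a) h2)
    rw [map_sub, map_mul, map_one, map_sub, hτ.tr.one, sub_eq_zero] at this
    exact this

end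

end VAgent.P095.Gamma
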