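import Mathlib
import Vale.Agent.P095.Gamma.System
import Vale.Agent.P095.Gamma.Martingale
import Vale.Agent.P095.Gamma.Pool
import Vale.Agent.P095.Gamma.Scalar

/-!
# P095: almost fixed elements from commuting copies
-/

namespace VAgent.P095.Gamma

open scoped ComplexOrder symmDiff

noncomputable section

theorem mart_map {C D : Type*} [CStarAlgebra C] [CStarAlgebra D] {β : Type*} (f : C →⋆ₐ[ℂ] D)
    (p : Polynomial ℝ) (I n : ℕ) (η : ℝ) (y : ℕ → β → C) (F : Finset β) (k : ℕ) :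
    f (mart p I n η y F k) = mart p I n η (fun i b => f (y i b)) F k := by
  induction k with
  | zero => simp [mart]
  | succ k ih =>
    simp only [mart, ← Complex.coe_smul]
    simp only [map_add, map_mul, map_smul, map_sub, map_one, ih, pvec_map]

theorem mart_image {C : Type*} [CStarAlgebra C] {β γ : Type*} [DecidableEq γ] (p : Polynomial ℝ)
    (I n : ℕ) (η : ℝ) (y : ℕ → γ → C) (g : β → γ) (F : Finset β) (hg : Set.InjOn g F) (k : ℕ) :
    mart p I n η y (F.image g) k = mart p I n η (fun i b => y i (g b)) F k := by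
  induction k with
  | zero => simp [mart]
  | succ k ih => simp only [mart, ih, pvec_image p I y _ g F hg]

universe u v

variable {F D : Type u} [CStarAlgebra F] [CStarAlgebra D]

/-- The bounds for one extremal tracial state. -/
theorem poolBounds_of_copies {C : Type*} [CStarAlgebra C] {β : Type*} {τ : C →ₗ[ℂ] ℂ} {M : ℝ}
    {y : ℕ → β → C} {alg : Set ℕ → StarSubalgebra ℂ C} (hy : Copies τ M y alg)
    {p : Polynomial ℝ} {I n N : ℕ} {η V : ℝ} (hη : 0 ≤ η) (hηV : η * V ≤ 1 / 2) {E : Finset β}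
    (hn : ∀ k, ‖pvec p I y (pool n k) E‖ ≤ V)
    (hs : ∀ k, |(τ (pvec p I y (pool n k) E * pvec p I y (pool n k) E)).re -
      scaleForm p I (kernel τ y (pool n k)) E E| ≤ 1 / 4)
    (hsc : ∀ k, |scaleForm p I (kernel τ y (pool n k)) E E - 1| ≤ 1 / 4)
    (_hE : E.card = N) : PoolBounds τ alg p I n η y E where
  mem k := pvec_mem p I y _ _ _ fun i hi b _ => hy.mem _ i b (Finset.mem_coe.2 hi)
  sa k := hy.isSelfAdjoint_pvec p I _ E
  mean k := hy.tr_pvec p I _ E
  small k := by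
    rw [norm_smul, Real.norm_of_nonneg hη]
    exact (mul_le_mul_of_nonneg_left (hn k) hη).trans hηV
  sq_ge k := by linarith [abs_le.1 (hs k), abs_le.1 (hsc k)]
  sq_le k := by linarith [abs_le.1 (hs k), abs_le.1 (hsc k)]

/-- Commuting translated copies of a normalised central element give almost fixed almost
symmetries with vanishing trace, uniformly in the tracial state. -/
theorem exists_almostFixed {G : Type v} [Group G] [DecidableEq G]
    (act : G → F →⋆ₐ[ℂ] F) (hact : ∀ g h z, act (g * h) z = act g (act h z))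
    (hG : ∀ (K : Finset G) (δ : ℝ), 0 < δ → ∃ E : Finset G, E.Nonempty ∧
      ∀ g ∈ K, (((E.image (g * ·)) ∆ E).card : ℝ) ≤ δ * E.card)
    {x : D} (hx : IsSelfAdjoint x) (h1 : x ∈ commSums D) (h2 : x * x - 1 ∈ commSums D)
    (S : Finset F)
    (hcop : ∀ B : Finset G, ∃ φ : ℕ → D →⋆ₐ[ℂ] F,
      (∀ i, ∀ g ∈ B, ∀ a ∈ S, ∀ d, Commute a (act g (φ i d))) ∧
      ∀ i j, i ≠ j → ∀ g ∈ B, ∀ h ∈ B, ∀ d d', Commute (act g (φ i d)) (act h (φ j d')))
    (K : Finset G) (ε : ℝ) (hε : 0 < ε) :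
    ∃ h : F, IsSelfAdjoint h ∧ ‖h‖ ≤ 1 ∧ (∀ a ∈ S, Commute a h) ∧
      ∀ τ : F →ₗ[ℂ] ℂ, IsTr τ → (τ (1 - h * h)).re ≤ ε ∧
        (∀ g ∈ K, (τ ((act g h - h) * (act g h - h))).re ≤ ε) ∧ ∀ a ∈ S, τ (h * a) = 0 := by
  classical
  by_cases hex : ∃ τ : F →ₗ[ℂ] ℂ, IsTr τ
  swap
  · exact ⟨0, IsSelfAdjoint.zero F, by simp, fun a _ => Commute.zero_right a,
      fun τ hτ => absurd ⟨τ, hτ⟩ hex⟩
  set T : ℝ := 2 / ε ^ 2 with hT
  have hT0 : 0 < T := by positivity
  set e : ℝ := ε / (4 * T * Real.exp (16 * T)) with he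
  have he0 : 0 < e := by positivity
  obtain ⟨E₀, hE₀, hFol⟩ := hG K (e / 2) (by positivity)
  set N := E₀.card with hN
  have hN1 : 1 ≤ N := hE₀.card_pos
  set B : Finset G := E₀ ∪ K.biUnion (fun g => E₀.image (g * ·)) with hB
  obtain ⟨p, hp⟩ := exists_scaleForm.{v} N hN1
  set δ : ℝ := min (1 / 4) (e / 10) with hδ
  have hδ0 : 0 < δ := by positivity
  obtain ⟨I, hI, hsc⟩ := hp B.card δ hδ0
  obtain ⟨n, hn, hpool⟩ := exists_pool_size.{u, v} p I N hI hN1 ‖x‖ δ hδ0
  obtain ⟨V₀, hV₀⟩ := exists_norm_pvec_le.{u, v} p I N n ‖x‖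
  set V : ℝ := max V₀ 1
  obtain ⟨Ns, hNs⟩ := exists_nat_gt (4 * V ^ 2 * T)
  have hNs0 : (0 : ℝ) < Ns := lt_of_le_of_lt (by positivity) hNs
  set η : ℝ := √(T / Ns) with hη
  have hη0 : 0 ≤ η := Real.sqrt_nonneg _
  have hη2 : (Ns : ℝ) * η ^ 2 = T := by
    rw [hη, Real.sq_sqrt (by positivity), mul_div_cancel₀ _ hNs0.ne']
  have hηV : η * V ≤ 1 / 2 := by
    have hV : (0 : ℝ) ≤ V := le_trans zero_le_one (le_max_right _ _)
    refine (pow_le_pow_iff_left₀ (mul_nonneg hη0 hV) (by norm_num) two_ne_zero).1 ?_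
    rw [mul_pow, hη, Real.sq_sqrt (by positivity), div_mul_eq_mul_div, div_le_iff₀ hNs0]
    nlinarith
  obtain ⟨φ, hφS, hφc⟩ := hcop B
  -- the algebra generated by everything used
  let base : Set F := (S : Set F) ∪ star (S : Set F)
  let gens : Set F := base ∪ ⋃ i, ⋃ g : B, Set.range fun d => act g (φ i d)
  let C₀ := gen gens
  letI : CStarAlgebra C₀ := StarSubalgebra.cstarAlgebra C₀
  let ψ : ℕ → B → D →⋆ₐ[ℂ] C₀ := fun i g => StarAlgHom.codRestrict ((act g).comp (φ i)) C₀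
    fun d => subset_gen _ (Or.inr (Set.mem_iUnion.2 ⟨i, Set.mem_iUnion.2 ⟨g, d, rfl⟩⟩))
  let base' : Set C₀ := Subtype.val ⁻¹' base
  have hbase : ∀ z ∈ base, ∀ i, ∀ g : B, ∀ d, Commute z (act g (φ i d)) := by
    rintro z (hz | hz) i g d
    · exact hφS i g g.2 z hz d
    · have := (hφS i g g.2 _ hz (star d)).star_star
      rwa [map_star, map_star, star_star, star_star] at this
  have hsys : Sys ψ base' := by
    refine ⟨fun i j hij a b d d' => Subtype.ext (hφc i j hij a a.2 b b.2 d d').eq,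
      fun z hz i a d => Subtype.ext (hbase _ hz i a d).eq, top_unique ?_⟩
    rw [← gen_preimage_eq_top gens]
    refine gen_mono fun z hz => ?_
    rcases hz with hz | hz
    · exact Or.inl hz
    · simp only [Set.mem_iUnion] at hz
      obtain ⟨i, g, d, hd⟩ := hz
      exact Or.inr (Set.mem_iUnion.2 ⟨i, Set.mem_iUnion.2 ⟨g, d, Subtype.ext hd⟩⟩)
  let yF : ℕ → G → F := fun i g => act g (φ i x)
  let yC : ℕ → B → C₀ := fun i g => ψ i g x
  let hF : Finset G → F := fun E => mart p I n η yF E Ns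
  let hC : Finset B → C₀ := fun E => mart p I n η yC E Ns
  have hval : ∀ E : Finset G, E ⊆ B →
      ((hC (E.subtype (· ∈ B)) : C₀) : F) = hF E := by
    intro E hE
    have him : (E.subtype (· ∈ B)).image Subtype.val = E := by
      ext g; simpa using fun h => hE h
    conv_rhs => rw [← him]
    simp only [hF, hC]
    rw [mart_image p I n η yF Subtype.val _ Subtype.val_injective.injOn]
    exact mart_map C₀.subtype p I n η yC _ Ns
  have hcard : ∀ E : Finset G, E ⊆ B → (E.subtype (· ∈ B)).card = E.card := by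
    intro E hE
    rw [Finset.card_subtype, Finset.filter_true_of_mem fun g hg => hE hg]
  have hsubg : ∀ g ∈ K, E₀.image (g * ·) ⊆ B := fun g hg z hz =>
    Finset.mem_union_right _ (Finset.mem_biUnion.2 ⟨g, hg, hz⟩)
  have hsub0 : E₀ ⊆ B := Finset.subset_union_left
  have hcardg : ∀ g, (E₀.image (g * ·)).card = N := fun g =>
    Finset.card_image_of_injective _ (mul_right_injective g)
  have hmove : ∀ g, act g (hF E₀) = hF (E₀.image (g * ·)) := by
    intro g
    simp only [hF]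
    rw [mart_map, mart_image p I n η yF (g * ·) E₀ (mul_right_injective g).injOn]
    simp only [yF, hact]
  -- estimates for the extremal tracial states of the generated algebra
  set E₁ : Finset B := E₀.subtype (· ∈ B) with hE₁
  have hE₁N : E₁.card = N := hcard _ hsub0
  have hext : ∀ σ : C₀ →ₗ[ℂ] ℂ, IsExtTr σ →
      (σ (1 - hC E₁ * hC E₁)).re ≤ ε ∧
      (∀ g ∈ K, (σ ((hC ((E₀.image (g * ·)).subtype (· ∈ B)) - hC E₁) *
        (hC ((E₀.image (g * ·)).subtype (· ∈ B)) - hC E₁))).re ≤ ε) ∧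
      IsSelfAdjoint (hC E₁) ∧ ‖hC E₁‖ ≤ 1 ∧
      ∀ a ∈ base', σ (hC E₁ * a) = 0 ∧ Commute (hC E₁) a := by
    intro σ hσ
    have hy : Copies σ ‖x‖ yC (part ψ) := hsys.copies hσ hx h1 h2
    have hker : ∀ k, GoodKernel (kernel σ yC (pool n k)) := fun k =>
      hy.goodKernel _ (Finset.card_pos.1 (by rw [pool_card]; omega))
    have hscale : ∀ k, ∀ E E' : Finset B, E.card = N → E'.card = N → _ := fun k =>
      hsc B (le_of_eq (Fintype.card_coe B)) _ (hker k)
    have hprod : ∀ k, ∀ E E' : Finset B, E.card = N → E'.card = N →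
        |(σ (pvec p I yC (pool n k) E * pvec p I yC (pool n k) E')).re -
          scaleForm p I (kernel σ yC (pool n k)) E E'| ≤ δ := fun k =>
      hpool C₀ B σ yC (part ψ) hy _ (pool_card n k)
    have hb : ∀ E : Finset B, E.card = N → PoolBounds σ (part ψ) p I n η yC E := fun E hE =>
      poolBounds_of_copies hy hη0 hηV
        (fun k => (hV₀ C₀ B yC _ E hy.norm_le (pool_card n k) hE).trans (le_max_left _ _))
        (fun k => (hprod k E E hE hE).trans (min_le_left _ _))
        (fun k => ((hscale k E E hE hE).1).trans (min_le_left _ _)) hE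
    obtain ⟨hm, hsa, hnorm, hmean⟩ := mart_spec hy (hb E₁ hE₁N) Ns
    refine ⟨mart_defect_le hy (hb E₁ hE₁N) Ns hε ?_, fun g hg => ?_, hsa, hnorm, fun a ha => ?_⟩
    · rw [hη2, hT, div_mul_cancel₀ _ (by positivity)]
    · set E := (E₀.image (g * ·)).subtype (· ∈ B) with hEdef
      have hE : E.card = N := (hcard _ (hsubg g hg)).trans (hcardg g)
      have hd : ∀ j, l2 σ (pvec p I yC (pool n j) E - pvec p I yC (pool n j) E₁) ^ 2 ≤ e := by
        intro j
        have sE := hy.isSelfAdjoint_pvec p I (pool n j) E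
        have s1 := hy.isSelfAdjoint_pvec p I (pool n j) E₁
        rw [hσ.tr.sa_sq (sE.sub s1), sub_mul, mul_sub, mul_sub, map_sub, map_sub, map_sub,
          Complex.sub_re, Complex.sub_re, Complex.sub_re,
          hσ.tr.comm (pvec p I yC (pool n j) E₁) (pvec p I yC (pool n j) E)]
        have q1 := abs_le.1 (hprod j E E hE hE)
        have q2 := abs_le.1 (hprod j E E₁ hE hE₁N)
        have q3 := abs_le.1 (hprod j E₁ E₁ hE₁N hE₁N)
        have q4 := (hscale j E E₁ hE hE₁N).2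
        have hΔ : (((E ∆ E₁).card : ℝ)) / N ≤ e / 2 := by
          rw [div_le_iff₀ (by exact_mod_cast hN1)]
          refine le_trans (le_of_eq ?_) (hFol g hg)
          have : (E ∆ E₁).map (Function.Embedding.subtype _) = (E₀.image (g * ·)) ∆ E₀ := by
            have hg' := hsubg g hg
            ext z
            simp only [Finset.mem_map, Finset.mem_symmDiff, hEdef, hE₁, Finset.mem_subtype,
              Function.Embedding.subtype_apply]
            constructor
            · rintro ⟨a, ha, rfl⟩; exact ha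
            · intro hz
              have hzB : z ∈ B := by
                rcases hz with ⟨h', -⟩ | ⟨h', -⟩
                · exact hg' h'
                · exact hsub0 h'
              exact ⟨⟨z, hzB⟩, hz, rfl⟩
          rw [← this, Finset.card_map]
        have : δ ≤ e / 10 := min_le_right _ _
        linarith
      have hdist := mart_dist_le hy (hb E hE) (hb E₁ hE₁N) he0.le hd Ns
      rw [hη2] at hdist
      rw [← hσ.tr.sa_sq ((mart_spec hy (hb E hE) Ns).2.1.sub hsa)]
      refine hdist.trans ?_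
      rw [he, show 2 * (ε / (4 * T * Real.exp (16 * T))) * T * Real.exp (16 * T) = ε / 2 by
        field_simp; ring]
      linarith
    · have hu : mart p I n η yC E₁ Ns ∈ part ψ Set.univ := part_mono (Set.subset_univ _) hm
      exact ⟨by rw [hsys.indep_rest hσ Set.univ hu (subset_gen _ (Or.inl ha)), hmean, zero_mul],
        hsys.commute_rest Set.univ _ hu a (subset_gen _ (Or.inl ha))⟩
  obtain ⟨σ₀, hσ₀⟩ : ∃ σ : C₀ →ₗ[ℂ] ℂ, IsExtTr σ := by
    obtain ⟨τ, hτ⟩ := hex
    have hσ : IsTr (τ.comp C₀.subtype.toAlgHom.toLinearMap) :=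
      ⟨fun a => hτ.nonneg a.1, hτ.one, fun a b => hτ.comm a.1 b.1⟩
    have hne : (trSet C₀).Nonempty := ⟨_, _, hσ, rfl⟩
    obtain ⟨f, hf⟩ := isCompact_trSet.extremePoints_nonempty hne
    obtain ⟨σ, -, rfl⟩ := hf.1
    exact ⟨σ, isExtTr_of_extremePoint hf⟩
  have h0 : ((hC E₁ : C₀) : F) = hF E₀ := hval _ hsub0
  obtain ⟨-, -, hsa, hnorm, hbase'⟩ := hext σ₀ hσ₀
  refine ⟨hF E₀, h0 ▸ hsa.map C₀.subtype, h0 ▸ hnorm, fun a ha => ?_, ?_⟩
  · rw [← h0]
    exact (((hbase' ⟨a, subset_gen _ (Or.inl (Or.inl ha))⟩ (Or.inl ha)).2).map C₀.subtype).symm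
  · intro τ hτ
    let σ : C₀ →ₗ[ℂ] ℂ := τ.comp C₀.subtype.toAlgHom.toLinearMap
    have hσ : IsTr σ := ⟨fun a => hτ.nonneg a.1, hτ.one, fun a b => hτ.comm a.1 b.1⟩
    refine ⟨?_, fun g hg => ?_, fun a ha => ?_⟩
    · rw [← h0]
      exact re_le_of_ext (f := 1 - hC E₁ * hC E₁) (fun σ' hσ' => (hext σ' hσ').1) hσ
    · rw [hmove g, ← h0, ← hval _ (hsubg g hg)]
      exact re_le_of_ext (f := (hC ((E₀.image (g * ·)).subtype (· ∈ B)) - hC E₁) *
        (hC ((E₀.image (g * ·)).subtype (· ∈ B)) - hC E₁))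
        (fun σ' hσ' => (hext σ' hσ').2.1 g hg) hσ
    · rw [← h0]
      exact eq_zero_of_ext (f := hC E₁ * ⟨a, subset_gen _ (Or.inl (Or.inl ha))⟩)
        (fun σ' hσ' => ((hext σ' hσ').2.2.2.2 _ (Or.inl ha)).1) hσ

end

end VAgent.P095.Gamma
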