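import Mathlib
import Vale.Agent.P101.Ultra
import Vale.Agent.P095.Gamma.Trace

/-!
# P095: automorphisms on the ultrapower, translated copies, and limit traces
-/

namespace VAgent.P095.Gamma

open Filter Topology BoundedContinuousFunction VAgent.P101
open scoped CStarAlgebra BoundedContinuousFunction ComplexOrder

noncomputable section

variable {A : Type*} [CStarAlgebra A] {ω : Ultrafilter ℕ}

/-- An endomorphism applied entrywise. -/
def seqMap (e : A →⋆ₐ[ℂ] A) : (ℕ →ᵇ A) →⋆ₐ[ℂ] (ℕ →ᵇ A) where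
  toFun f := ofNormedAddCommGroupDiscrete (fun n => e (f n)) ‖f‖ fun n =>
    (NonUnitalStarAlgHom.norm_apply_le e (f n)).trans (f.norm_coe_le_norm n)
  map_one' := by ext; simp
  map_mul' f g := by ext; simp
  map_zero' := by ext; simp
  map_add' f g := by ext; simp
  commutes' r := by ext; simp [Algebra.algebraMap_eq_smul_one]
  map_star' f := by ext; simp [map_star]

@[simp] theorem seqMap_apply (e : A →⋆ₐ[ℂ] A) (f : ℕ →ᵇ A) (n : ℕ) : seqMap e f n = e (f n) := rfl

/-- An endomorphism on the ultrapower. -/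
def uMap (e : A →⋆ₐ[ℂ] A) : UPow A ω →⋆ₐ[ℂ] UPow A ω where
  toFun := Quotient.map' (seqMap e) fun f g h => by
    rw [Submodule.quotientRel_def, mem_nullIdeal] at h ⊢
    refine squeeze_zero (fun n => norm_nonneg _) (fun n => ?_) h
    rw [← map_sub, seqMap_apply]
    exact NonUnitalStarAlgHom.norm_apply_le e _
  map_one' := congrArg UPow.mk (map_one (seqMap e))
  map_mul' x y := by
    obtain ⟨f, rfl⟩ := UPow.mk_surjective x
    obtain ⟨g, rfl⟩ := UPow.mk_surjective y
    exact (congrArg UPow.mk (map_mul (seqMap e) f g)).trans (map_mul UPow.mk _ _)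
  map_zero' := congrArg UPow.mk (map_zero (seqMap e))
  map_add' x y := by
    obtain ⟨f, rfl⟩ := UPow.mk_surjective x
    obtain ⟨g, rfl⟩ := UPow.mk_surjective y
    exact (congrArg UPow.mk (map_add (seqMap e) f g)).trans (map_add UPow.mk _ _)
  commutes' r := congrArg UPow.mk (AlgHomClass.commutes (seqMap e) r)
  map_star' x := by
    obtain ⟨f, rfl⟩ := UPow.mk_surjective x
    exact congrArg UPow.mk (map_star (seqMap e) f)

theorem uMap_mk (e : A →⋆ₐ[ℂ] A) (f : ℕ →ᵇ A) :
    uMap e (UPow.mk f : UPow A ω) = UPow.mk (seqMap e f) := rfl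

theorem uMap_const (e : A →⋆ₐ[ℂ] A) (a : A) :
    uMap e (UPow.const a : UPow A ω) = UPow.const (e a) := rfl

theorem uMap_comp (e e' : A →⋆ₐ[ℂ] A) (x : UPow A ω) :
    uMap (e.comp e') x = uMap e (uMap e' x) := by
  obtain ⟨f, rfl⟩ := UPow.mk_surjective x
  rfl

variable {G : Type*} [Group G] (α : G →* (A ≃⋆ₐ[ℂ] A))

/-- The action on the ultrapower. -/
def uAct (g : G) : UPow A ω →⋆ₐ[ℂ] UPow A ω :=
  uMap ((α g : A ≃⋆ₐ[ℂ] A) : A →⋆ₐ[ℂ] A)

theorem uAct_mul (g h : G) (x : UPow A ω) : uAct α (g * h) x = uAct α g (uAct α h x) := by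
  obtain ⟨f, rfl⟩ := UPow.mk_surjective x
  simp only [uAct, uMap_mk]
  refine congrArg UPow.mk (BoundedContinuousFunction.ext fun n => ?_)
  simp [map_mul]

theorem uAct_mem (g : G) {x : UPow A ω} (hx : x ∈ CentralSeq A ω) :
    uAct α g x ∈ CentralSeq A ω := by
  rw [mem_centralSeq] at hx ⊢
  intro a
  have e : (UPow.const a : UPow A ω) = uAct α g (UPow.const ((α g).symm a)) := by
    rw [uAct, uMap_const]; simp
  rw [e]
  exact (hx _).map _

/-- The action on the central sequence algebra. -/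
def cAct (g : G) : CentralSeq A ω →⋆ₐ[ℂ] CentralSeq A ω :=
  StarAlgHom.codRestrict ((uAct α g).comp (CentralSeq A ω).subtype) _ fun x => uAct_mem α g x.2

theorem cAct_mul (g h : G) (x : CentralSeq A ω) : cAct α (g * h) x = cAct α g (cAct α h x) :=
  Subtype.ext (uAct_mul α g h x.1)

/-- Infinitely many copies whose translates by `B` commute. -/
theorem exists_translated_copies (hF : HasCopies (CentralSeq A ω))
    (T : Finset (CentralSeq A ω)) (B : Finset G) :
    ∃ φ : ℕ → GenAlg T →⋆ₐ[ℂ] CentralSeq A ω, ∀ i j, i ≠ j → ∀ g ∈ B, ∀ h ∈ B, ∀ d d',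
      Commute (cAct α g (φ i d)) (cAct α h (φ j d')) := by
  classical
  choose sel hsel using hF T
  let new : Finset (CentralSeq A ω) → Finset (CentralSeq A ω) := fun s =>
    (B ×ˢ B).biUnion fun gh => T.attach.biUnion fun t =>
      {cAct α (gh.1⁻¹ * gh.2) (sel s ⟨t.1, mem_genAlg t.2⟩),
        cAct α (gh.1⁻¹ * gh.2) (sel s (star ⟨t.1, mem_genAlg t.2⟩))}
  let lvl : ℕ → Finset (CentralSeq A ω) := fun k => Nat.rec ∅ (fun _ s => s ∪ new s) k
  have hmono : Monotone lvl := monotone_nat_of_le_succ fun k => Finset.subset_union_left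
  refine ⟨fun k => sel (lvl k), ?_⟩
  have key : ∀ j i, j < i → ∀ g ∈ B, ∀ h ∈ B, ∀ d d',
      Commute (cAct α g (sel (lvl i) d)) (cAct α h (sel (lvl j) d')) := by
    intro j i hji g hg h hh d d'
    refine commute_of_gens ((cAct α h).comp (sel (lvl j))) _ (fun t ht => ?_) d'
    have hin : ∀ z ∈ new (lvl j), z ∈ lvl i := fun z hz =>
      hmono (Nat.succ_le_of_lt hji) (Finset.mem_union_right _ hz)
    have hcomm : ∀ z ∈ new (lvl j), Commute (cAct α g (sel (lvl i) d)) (cAct α g z) := fun z hz =>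
      ((hsel (lvl i) z (hin z hz) d).map (cAct α g)).symm
    have hmem : ∀ z, (z = cAct α (g⁻¹ * h) (sel (lvl j) ⟨t, mem_genAlg ht⟩) ∨
        z = cAct α (g⁻¹ * h) (sel (lvl j) (star ⟨t, mem_genAlg ht⟩))) → z ∈ new (lvl j) := by
      intro z hz
      refine Finset.mem_biUnion.2 ⟨(g, h), Finset.mem_product.2 ⟨hg, hh⟩, ?_⟩
      exact Finset.mem_biUnion.2 ⟨⟨t, ht⟩, Finset.mem_attach _ _, by simpa using hz⟩
    constructor
    · have := hcomm _ (hmem _ (Or.inl rfl))
      rwa [← cAct_mul, mul_inv_cancel_left] at this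
    · have := hcomm _ (hmem _ (Or.inr rfl))
      rwa [← cAct_mul, mul_inv_cancel_left] at this
  intro i j hij g hg h hh d d'
  rcases lt_or_gt_of_ne hij with hl | hl
  · exact (key i j hl h hh g hg d' d).symm
  · exact key j i hl g hg h hh d d'

/-- A sequence of tracial states has a limit tracial state on the ultrapower. -/
theorem exists_limit_trace (t : ℕ → A →ₗ[ℂ] ℂ) (ht : ∀ n, IsTr (t n)) :
    ∃ τ : UPow A ω →ₗ[ℂ] ℂ, IsTr τ ∧
      ∀ f : ℕ →ᵇ A, Tendsto (fun n => t n (f n)) (ω : Filter ℕ) (𝓝 (τ (UPow.mk f))) := by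
  have hlim : ∀ f : ℕ →ᵇ A, ∃ c, Tendsto (fun n => t n (f n)) (ω : Filter ℕ) (𝓝 c) := by
    intro f
    obtain ⟨c, -, hc⟩ := (isCompact_closedBall (0 : ℂ) ‖f‖).ultrafilter_le_nhds
      (ω.map fun n => t n (f n)) (le_principal_iff.2 (Filter.mem_map.2
        (Filter.univ_mem' fun n => by
          simpa using ((ht n).norm_le (f n)).trans (f.norm_coe_le_norm n))))
    exact ⟨c, hc⟩
  choose L hL using hlim
  have hnull : ∀ f ∈ nullIdeal A ω, L f = 0 := fun f hf =>
    tendsto_nhds_unique (hL f) (squeeze_zero_norm (fun n => (ht n).norm_le (f n)) hf)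
  have hadd : ∀ f g, L (f + g) = L f + L g := fun f g =>
    tendsto_nhds_unique (hL (f + g)) (((hL f).add (hL g)).congr fun n => by simp)
  have hsmul : ∀ (c : ℂ) f, L (c • f) = c * L f := fun c f =>
    tendsto_nhds_unique (hL (c • f)) (((hL f).const_mul c).congr fun n => by simp)
  choose r hr using (UPow.mk_surjective : Function.Surjective (UPow.mk : (ℕ →ᵇ A) → UPow A ω))
  have hwell : ∀ f, L (r (UPow.mk f : UPow A ω)) = L f := by
    intro f
    have h := UPow.mk_eq_mk.1 (hr (UPow.mk f : UPow A ω))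
    have := hadd (r (UPow.mk f : UPow A ω) - f) f
    rw [sub_add_cancel, hnull _ h, zero_add] at this
    exact this
  let τ : UPow A ω →ₗ[ℂ] ℂ :=
    { toFun := fun x => L (r x)
      map_add' := fun x y => by
        obtain ⟨f, rfl⟩ := UPow.mk_surjective x
        obtain ⟨g, rfl⟩ := UPow.mk_surjective y
        rw [← map_add, hwell, hwell, hwell, hadd]
      map_smul' := fun c x => by
        obtain ⟨f, rfl⟩ := UPow.mk_surjective x
        rw [← map_smul, hwell, hwell, hsmul]; rfl }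
  have hτ : ∀ f, τ (UPow.mk f) = L f := hwell
  refine ⟨τ, ⟨fun x => ?_, ?_, fun x y => ?_⟩, fun f => hτ f ▸ hL f⟩
  · obtain ⟨f, rfl⟩ := UPow.mk_surjective x
    rw [← UPow.mk_star, ← map_mul, hτ]
    exact ge_of_tendsto' (hL _) fun n => (ht n).nonneg (f n)
  · rw [← map_one (UPow.mk : (ℕ →ᵇ A) →ₐ[ℂ] UPow A ω), hτ]
    exact tendsto_nhds_unique (hL 1) (tendsto_const_nhds.congr fun n => by simp [(ht n).one])
  · obtain ⟨f, rfl⟩ := UPow.mk_surjective x
    obtain ⟨g, rfl⟩ := UPow.mk_surjective y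
    rw [← map_mul, ← map_mul, hτ, hτ]
    exact tendsto_nhds_unique ((hL (f * g)).congr fun n => by simp [(ht n).comm (f n) (g n)]) (hL _)

end

end VAgent.P095.Gamma
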