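import Mathlib
import Vale.Agent.P095.Gamma.Core
import Vale.Agent.P095.Gamma.UPowMap
import Vale.Agent.P095.Gamma.Cert
import Vale.Agent.P101.Coord

/-!
# P095: equivariant uniform property Gamma for actions of amenable groups
-/

namespace VAgent.P095.Gamma

open Filter Topology BoundedContinuousFunction VAgent.P101
open scoped ComplexOrder CStarAlgebra BoundedContinuousFunction symmDiff

noncomputable section

universe u v

variable {A : Type u} [CStarAlgebra A] [Nontrivial A] [TopologicalSpace.SeparableSpace A]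
  {ω : Ultrafilter ℕ}

/-- A finite set generating an algebra which contains a certified normalised element. -/
theorem exists_certGen (hω : (ω : Filter ℕ) ≤ cofinite)
    (hchar : Vale.Agent.P101.NoCharacters (CentralSeq A ω)) :
    ∃ (T : Finset (CentralSeq A ω)) (x : GenAlg T),
      IsSelfAdjoint x ∧ x ∈ commSums (GenAlg T) ∧ x * x - 1 ∈ commSums (GenAlg T) := by
  classical
  let _ : PartialOrder (CentralSeq A ω) := CStarAlgebra.spectralOrder _
  have : StarOrderedRing (CentralSeq A ω) := CStarAlgebra.spectralOrderedRing _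
  obtain ⟨θ⟩ := exists_dimDrop (hasCopies (A := A) (ω := ω) hω) hchar 2
  obtain ⟨x, u, v, hx, e1, e2⟩ := exists_cert
  set T : Finset (CentralSeq A ω) :=
    insert (θ x) (Finset.univ.image (fun i => θ (u i)) ∪ Finset.univ.image (fun i => θ (v i)))
  let X : GenAlg T := ⟨θ x, mem_genAlg (Finset.mem_insert_self _ _)⟩
  let U : Fin 5 → GenAlg T := fun i => ⟨θ (u i), mem_genAlg (by simp [T])⟩
  let V : Fin 5 → GenAlg T := fun i => ⟨θ (v i), mem_genAlg (by simp [T])⟩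
  have hX : IsSelfAdjoint X := Subtype.ext (hx.map θ)
  have f1 : X + (V 0 * U 0 + V 1 * U 1) = U 0 * V 0 + U 1 * V 1 :=
    Subtype.ext (by simpa using congrArg θ e1)
  have f2 : X * X + (V 2 * U 2 + V 3 * U 3 + V 4 * U 4) =
      1 + (U 2 * V 2 + U 3 * V 3 + U 4 * V 4) := Subtype.ext (by simpa using congrArg θ e2)
  refine ⟨T, X, hX, ?_, ?_⟩
  · have : X = (U 0 * V 0 - V 0 * U 0) + (U 1 * V 1 - V 1 * U 1) := by
      rw [eq_sub_of_add_eq f1]; abel
    rw [this]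
    exact add_mem (commSums_mem _ _) (commSums_mem _ _)
  · have : X * X - 1 = (U 2 * V 2 - V 2 * U 2) + (U 3 * V 3 - V 3 * U 3) +
        (U 4 * V 4 - V 4 * U 4) := by
      rw [eq_sub_of_add_eq f2]; abel
    rw [this]
    exact add_mem (add_mem (commSums_mem _ _) (commSums_mem _ _)) (commSums_mem _ _)

/-- A self-adjoint contraction of the ultrapower lifts to self-adjoint contractions. -/
theorem exists_lift {h : UPow A ω} (hs : IsSelfAdjoint h) (hn : ‖h‖ ≤ 1) :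
    ∃ f : ℕ →ᵇ A, (UPow.mk f : UPow A ω) = h ∧ ∀ n, IsSelfAdjoint (f n) ∧ ‖f n‖ ≤ 1 := by
  obtain ⟨f₀, hf₀⟩ := UPow.mk_surjective h
  let f₁ : ℕ →ᵇ A := (1 / 2 : ℂ) • (f₀ + star f₀)
  have hf₁ : (UPow.mk f₁ : UPow A ω) = h := by
    rw [map_smul, map_add, UPow.mk_star, hf₀, hs.star_eq, ← two_smul ℂ h, smul_smul]
    norm_num
  let f : ℕ →ᵇ A := ofNormedAddCommGroupDiscrete (fun n => (max 1 ‖f₁ n‖)⁻¹ • f₁ n) 1 fun n => by
    rw [norm_smul, norm_inv, Real.norm_of_nonneg (zero_le_one.trans (le_max_left _ _)),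
      inv_mul_le_iff₀ (lt_of_lt_of_le one_pos (le_max_left _ _)), mul_one]
    exact le_max_right _ _
  have hfn : ∀ n, f n = (max 1 ‖f₁ n‖)⁻¹ • f₁ n := fun n => rfl
  refine ⟨f, ?_, fun n => ⟨?_, ?_⟩⟩
  · rw [← hf₁, UPow.mk_eq_mk, mem_nullIdeal]
    rw [Metric.tendsto_nhds]
    intro δ hδ
    filter_upwards [UPow.eventually_of_norm_lt (ω := ω) (f := f₁) (r := 1 + δ / 2)
      (by rw [hf₁]; linarith)] with n hn'
    rw [dist_zero_right, norm_norm, BoundedContinuousFunction.sub_apply, hfn]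
    rcases le_or_gt ‖f₁ n‖ 1 with h1 | h1
    · rw [max_eq_left h1]; simpa using hδ
    · rw [max_eq_right h1.le, show (‖f₁ n‖)⁻¹ • f₁ n - f₁ n = ((‖f₁ n‖)⁻¹ - 1) • f₁ n by
        rw [sub_smul, one_smul], norm_smul, Real.norm_eq_abs,
        abs_of_nonpos (sub_nonpos.2 (inv_le_one_of_one_le₀ h1.le)), neg_sub, sub_mul, one_mul,
        inv_mul_cancel₀ (by linarith)]
      linarith
  · rw [hfn]
    refine (IsSelfAdjoint.all _).smul ?_
    show star (f₁ n) = f₁ n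
    simp [f₁, star_smul, add_comm]
  · have := f.norm_coe_le_norm n
    exact this.trans ((BoundedContinuousFunction.norm_le zero_le_one).2 fun m => by
      rw [hfn, norm_smul, norm_inv, Real.norm_of_nonneg (zero_le_one.trans (le_max_left _ _)),
        inv_mul_le_iff₀ (lt_of_lt_of_le one_pos (le_max_left _ _)), mul_one]
      exact le_max_right _ _)

/-- Equivariant uniform property Gamma in the ultrapower. -/
theorem exists_almostFixed_upow (hω : (ω : Filter ℕ) ≤ cofinite)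
    (hchar : Vale.Agent.P101.NoCharacters (CentralSeq A ω))
    {G : Type v} [Group G] [DecidableEq G]
    (hG : ∀ (K : Finset G) (δ : ℝ), 0 < δ → ∃ E : Finset G, E.Nonempty ∧
      ∀ g ∈ K, (((E.image (g * ·)) ∆ E).card : ℝ) ≤ δ * E.card)
    (α : G →* (A ≃⋆ₐ[ℂ] A)) (S : Finset A) (K : Finset G) (ε : ℝ) (hε : 0 < ε) :
    ∃ h : UPow A ω, IsSelfAdjoint h ∧ ‖h‖ ≤ 1 ∧ (∀ a ∈ S, Commute (UPow.const a) h) ∧
      ∀ τ : UPow A ω →ₗ[ℂ] ℂ, IsTr τ → (τ (1 - h * h)).re ≤ ε ∧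
        (∀ g ∈ K, (τ ((uAct α g h - h) * (uAct α g h - h))).re ≤ ε) ∧
        ∀ a ∈ S, τ (h * UPow.const a) = 0 := by
  classical
  obtain ⟨T, x, hx, h1, h2⟩ := exists_certGen hω hchar
  have hcop : ∀ B : Finset G, ∃ φ : ℕ → GenAlg T →⋆ₐ[ℂ] UPow A ω,
      (∀ i, ∀ g ∈ B, ∀ a ∈ S.image (UPow.const : A → UPow A ω), ∀ d,
        Commute a (uAct α g (φ i d))) ∧
      ∀ i j, i ≠ j → ∀ g ∈ B, ∀ h ∈ B, ∀ d d',
        Commute (uAct α g (φ i d)) (uAct α h (φ j d')) := by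
    intro B
    obtain ⟨φ, hφ⟩ := exists_translated_copies α (hasCopies (A := A) (ω := ω) hω) T B
    refine ⟨fun i => (CentralSeq A ω).subtype.comp (φ i), fun i g hg a ha d => ?_,
      fun i j hij g hg h hh d d' => ?_⟩
    · obtain ⟨a, -, rfl⟩ := Finset.mem_image.1 ha
      exact mem_centralSeq.1 (uAct_mem α g (φ i d).2) a
    · exact congrArg Subtype.val (hφ i j hij g hg h hh d d').eq
  obtain ⟨h, hs, hn, hc, hτ⟩ := exists_almostFixed (F := UPow A ω) (D := GenAlg T)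
    (uAct α) (uAct_mul α) hG hx h1 h2 (S.image UPow.const) hcop K ε hε
  exact ⟨h, hs, hn, fun a ha => hc _ (Finset.mem_image_of_mem _ ha),
    fun τ ht => ⟨(hτ τ ht).1, (hτ τ ht).2.1,
      fun a ha => (hτ τ ht).2.2 _ (Finset.mem_image_of_mem _ ha)⟩⟩

/-- **Equivariant uniform property Gamma.** -/
theorem equivariant_gamma (hω : (ω : Filter ℕ) ≤ cofinite)
    (hchar : Vale.Agent.P101.NoCharacters (CentralSeq A ω))
    {G : Type v} [Group G] [DecidableEq G]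
    (hG : ∀ (K : Finset G) (δ : ℝ), 0 < δ → ∃ E : Finset G, E.Nonempty ∧
      ∀ g ∈ K, (((E.image (g * ·)) ∆ E).card : ℝ) ≤ δ * E.card)
    (α : G →* (A ≃⋆ₐ[ℂ] A)) (S : Finset A) (K : Finset G) (ε : ℝ) (hε : 0 < ε) :
    ∃ h : A, IsSelfAdjoint h ∧ ‖h‖ ≤ 1 ∧ (∀ a ∈ S, ‖h * a - a * h‖ ≤ ε) ∧
      ∀ τ : A →ₗ[ℂ] ℂ, (∀ a, 0 ≤ τ (star a * a)) → τ 1 = 1 → (∀ a b, τ (a * b) = τ (b * a)) →
        (τ (1 - h * h)).re ≤ ε ∧
        (∀ g ∈ K, (τ ((α g h - h) * (α g h - h))).re ≤ ε) ∧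
        ∀ a ∈ S, ‖τ (h * a)‖ ≤ ε := by
  classical
  obtain ⟨H, hs, hn, hc, hτ⟩ := exists_almostFixed_upow hω hchar hG α S K (ε / 2) (by positivity)
  obtain ⟨f, hf, hfn⟩ := exists_lift hs hn
  let Good : ℕ → Prop := fun n => ∀ τ : A →ₗ[ℂ] ℂ, IsTr τ →
    (τ (1 - f n * f n)).re ≤ ε ∧ (∀ g ∈ K, (τ ((α g (f n) - f n) * (α g (f n) - f n))).re ≤ ε) ∧
      ∀ a ∈ S, ‖τ (f n * a)‖ ≤ ε
  have hgood : ∀ᶠ n in (ω : Filter ℕ), Good n := by
    by_contra hbad
    rw [← Ultrafilter.eventually_not] at hbad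
    obtain ⟨n₀, hn₀⟩ := hbad.exists
    obtain ⟨τ₀, hτ₀⟩ : ∃ τ : A →ₗ[ℂ] ℂ, IsTr τ := by
      by_contra hno
      exact hn₀ fun τ ht => absurd ⟨τ, ht⟩ hno
    have hsel : ∀ n, ∃ τ : A →ₗ[ℂ] ℂ, IsTr τ ∧ (¬ Good n →
        ¬ ((τ (1 - f n * f n)).re ≤ ε ∧
          (∀ g ∈ K, (τ ((α g (f n) - f n) * (α g (f n) - f n))).re ≤ ε) ∧
          ∀ a ∈ S, ‖τ (f n * a)‖ ≤ ε)) := by
      intro n
      by_cases hg : Good n
      · exact ⟨τ₀, hτ₀, fun h => absurd hg h⟩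
      · simp only [Good, not_forall] at hg
        obtain ⟨τ, ht, hbad'⟩ := hg
        exact ⟨τ, ht, fun _ => hbad'⟩
    choose t ht htb using hsel
    obtain ⟨τ, hτT, hlim⟩ := exists_limit_trace (ω := ω) t ht
    obtain ⟨b1, b2, b3⟩ := hτ τ hτT
    have hre : ∀ (F : ℕ →ᵇ A), (τ (UPow.mk F)).re ≤ ε / 2 →
        ∀ᶠ n in (ω : Filter ℕ), (t n (F n)).re ≤ ε := fun F hF =>
      ((Complex.continuous_re.tendsto _).comp (hlim F)).eventually_le_const (by linarith)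
    have c1 : ∀ᶠ n in (ω : Filter ℕ), (t n (1 - f n * f n)).re ≤ ε :=
      hre (1 - f * f) (by rw [map_sub, map_mul, map_one, hf]; exact b1)
    have c2 : ∀ g ∈ K, ∀ᶠ n in (ω : Filter ℕ),
        (t n ((α g (f n) - f n) * (α g (f n) - f n))).re ≤ ε := fun g hg =>
      hre ((seqMap ((α g : A ≃⋆ₐ[ℂ] A) : A →⋆ₐ[ℂ] A) f - f) *
        (seqMap ((α g : A ≃⋆ₐ[ℂ] A) : A →⋆ₐ[ℂ] A) f - f)) (by
        rw [map_mul, map_sub, ← uMap_mk, hf]; exact b2 g hg)
    have c3 : ∀ a ∈ S, ∀ᶠ n in (ω : Filter ℕ), ‖t n (f n * a)‖ ≤ ε := fun a ha =>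
      (hlim (f * BoundedContinuousFunction.const ℕ a)).norm.eventually_le_const (by
        rw [map_mul, hf]
        show ‖τ (H * UPow.const a)‖ < ε
        rw [b3 a ha, norm_zero]; exact hε)
    obtain ⟨n, hnb, h1, h2, h3⟩ := (hbad.and (c1.and
      (((eventually_all_finset K).2 c2).and ((eventually_all_finset S).2 c3)))).exists
    exact htb n hnb ⟨h1, h2, h3⟩
  have hcomm : ∀ a ∈ S, ∀ᶠ n in (ω : Filter ℕ), ‖f n * a - a * f n‖ ≤ ε := by
    intro a ha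
    have h0 : (UPow.mk (f * BoundedContinuousFunction.const ℕ a -
        BoundedContinuousFunction.const ℕ a * f) : UPow A ω) = 0 := by
      rw [map_sub, map_mul, map_mul, hf]
      exact sub_eq_zero.2 (hc a ha).eq.symm
    filter_upwards [UPow.eventually_of_norm_lt (ω := ω) (r := ε) (by rw [h0, norm_zero]; exact hε)]
      with n hn'
    exact le_of_lt (by simpa using hn')
  obtain ⟨n, h1, h2⟩ := (hgood.and ((eventually_all_finset S).2 hcomm)).exists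
  exact ⟨f n, (hfn n).1, (hfn n).2, h2, fun τ a b c => h1 τ ⟨a, b, c⟩⟩

end

end VAgent.P095.Gamma
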